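import Vale.Agent.P182.H563.L3In
import Vale.Agent.P182.H668.AltV
import Vale.Agent.P182.H388.Col

/-!
# Glue between the process and the endgame, on the collapsed curve
-/

namespace Vale.Agent.P182.H668

open LinearMap Submodule Module Vale.Agent.P182 Vale.Agent.P182.H430 Vale.Agent.P182.H578

variable {k F P : Type*} [Field k] [Field F] [Algebra k F] {C : Curve k F P}
variable {E : Type*} [AddCommGroup E] [Module F E] [Module k E] [IsScalarTower k F E]
  [FiniteDimensional F E]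
variable {W : Type*} [AddCommGroup W] [Module F W] [Module k W] [IsScalarTower k F W]
  [FiniteDimensional F W]
variable {U : Type*} [AddCommGroup U] [Module F U] [Module k U] [IsScalarTower k F U]
  [FiniteDimensional F U]
variable {U' : Type*} [AddCommGroup U'] [Module F U'] [Module k U'] [IsScalarTower k F U']
  [FiniteDimensional F U']

variable {κ : P → ℤ} {N : Bun C E} {B : LinearMap.BilinForm F E} {M : Bun C W}
  {qM : LinearMap.BilinForm F W} {S : Bun C U} {S' : Bun C U'} {qS : U →ₗ[F] U' →ₗ[F] F}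
  {x : E →ₗ[F] U} {φ : E →ₗ[F] W} {A : Submodule F E}

/-! ### the output of the process is an input of the endgame -/

theorem L3In.of563 {hκ : Dualizing C κ} (h : H563.L3In hκ N B M qM S x φ A) (hv : VV N B)
    (h2 : (2 : F) ≠ 0) :
    L3In κ N B M qM S (dV hκ S) (LinearMap.id : Dual F U →ₗ[F] Dual F U).flip x φ A where
  hκ := hκ
  oN := h.oN
  oM := h.oM
  oS := dV_pair hκ S
  hx := h.mx
  hx1 := h.hx
  hφ := h.mφ
  hφ1 := h.hφ
  hφφ := h.hpp
  hSM := h.ext
  noA := h.Ano
  maxA := h.Amax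
  noS := h.Pno
  noS' := h.PnoD
  hz z hz := by
    obtain ⟨c, hc1, hc2, hc3⟩ := h.hz z hz
    refine ⟨c, ⟨fun s t => ?_, fun p a b s t hs ht => hc2 p a s hs b t ht⟩, fun e u => hc3 e u⟩
    have h1 := hc1 (s + t)
    rw [map_add, map_add, LinearMap.add_apply, LinearMap.add_apply, hc1, hc1] at h1
    linear_combination h1
  inj c hc h0 := by
    refine h.c_inj c (fun s => ?_) (fun p a s hs b t ht => hc.level p a b s t hs ht)
      (fun a _ a' _ => h0 a a')
    have h1 : (2 : F) * c s s = 0 := by linear_combination hc.skew s s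
    exact (mul_eq_zero.1 h1).resolve_left h2
  ex := by
    obtain ⟨c, hc0, hc1, hc2⟩ := h.c_ne
    refine ⟨c, ⟨fun s t => ?_, fun p a b s t hs ht => hc2 p a s hs b t ht⟩, hc0⟩
    have h1 := hc1 (s + t)
    rw [map_add, map_add, LinearMap.add_apply, LinearMap.add_apply, hc1, hc1] at h1
    linear_combination h1
  nil := h.nil
  vv := hv

/-! ### the collapsed curve -/

namespace Col

variable (c : Col C)

theorem mem_MV2 (hκ : Dualizing C κ) {p : P} {i j a b : ℤ} {f : F}
    (h : f ∈ (C.pl p).M (c.m p) (i + j - c.kap κ p)) (ha : a < c.φ p (i + 1))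
    (hb : b < c.φ p (j + 1)) : f ∈ (C.pl p).M (C.per p) (a + b - κ p) := by
  rcases h with h | h
  · exact Or.inl h
  · right
    have e1 := kap_eq hκ p
    unfold kap at h
    have h6 : i + 1 + j ≤ c.m p * ((C.pl p).ord f + κ p / C.per p + 1) := by
      rw [mul_add, mul_add, mul_one]
      rw [mul_comm (κ p / (C.per p : ℤ)) (c.m p : ℤ)] at h
      linarith
    have h7 := c.add_le_of_le (b := b) h6 hb
    rw [mul_add, mul_add, mul_one] at h7
    linarith

omit [IsScalarTower k F U] [FiniteDimensional F U] in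
/-- skew forms on a flat bundle -/
theorem isLam_iff (hκ : Dualizing C κ) (hS : c.Flat S) {d : LinearMap.BilinForm F U} :
    IsLam (C := c.curve) (c.kap κ) (c.bun S) d ↔ IsLam κ S d := by
  constructor
  · intro h
    refine ⟨h.skew, fun p a b s t hs ht => ?_⟩
    obtain ⟨i, hi, hi'⟩ := c.block p a
    obtain ⟨j, hj, hj'⟩ := c.block p b
    exact c.mem_MV2 hκ (h.level p i j s t ((S.ch p).anti _ _ hi hs)
      ((S.ch p).anti _ _ hj ht)) hi' hj'
  · intro h
    refine ⟨h.skew, fun p i j s t hs ht => ?_⟩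
    have h2 := c.mono p (show j < j + 1 by omega)
    exact c.mem_MV hκ (h.level p _ (c.φ p (j + 1) - 1) s t hs
      (hS p j _ (by omega) (by omega) ht))

end Col

theorem L3In.col (h : L3In κ N B M qM S S' qS x φ A) (c : Col C) (hM : c.Flat M)
    (hS : c.Flat S) (hS' : c.Flat S') :
    L3In (C := c.curve) (c.kap κ) (c.bun N) B (c.bun M) qM (c.bun S) (c.bun S') qS x φ A where
  hκ := c.dualizing h.hκ
  oN := c.orth h.oN
  oM := c.orthV h.hκ hM h.oM
  oS := c.pairV h.hκ hS h.oS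
  hx := by
    rw [c.hom_lat hS]
    exact h.hx
  hx1 := by
    rw [c.hom_lat hS]
    exact h.hx1
  hφ := by
    rw [c.hom_lat hM]
    exact h.hφ
  hφ1 := by
    rw [c.hom_lat hM]
    exact h.hφ1
  hφφ := h.hφφ
  hSM := by
    rw [c.hom_lat hM]
    exact h.hSM
  noA := (c.noHom_iff hM (N.sub A)).2 h.noA
  maxA G hG := h.maxA G ((c.noHom_iff hM (N.sub G)).1 hG)
  noS := (c.noHom_iff hS (N.sub (perp B A))).2 h.noS
  noS' := (c.noHom_iff hS' (N.sub (perp B A))).2 h.noS'
  hz := by
    rw [c.hom_lat hS']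
    intro z hz
    obtain ⟨d, hd, hdz⟩ := h.hz z hz
    exact ⟨d, (c.isLam_iff h.hκ hS).2 hd, hdz⟩
  inj d hd := h.inj d ((c.isLam_iff h.hκ hS).1 hd)
  ex := by
    obtain ⟨d, hd, hd0⟩ := h.ex
    exact ⟨d, (c.isLam_iff h.hκ hS).2 hd, hd0⟩
  nil ε hε Θ hΘ hH := h.nil ε hε Θ hΘ (c.higgs h.hκ hH)
  vv := c.vv h.vv

omit [IsScalarTower k F E] [FiniteDimensional F E] [IsScalarTower k F W]
  [FiniteDimensional F W] in
theorem AltV.col (h : AltV κ M qM φ) (c : Col C) (hM : c.Flat M) (hκ : Dualizing C κ) :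
    AltV (C := c.curve) (c.kap κ) (c.bun M) qM φ := by
  rcases h with h | ⟨β, h1, h2, h3⟩
  · exact Or.inl h
  · refine Or.inr ⟨β, h1, fun i p a b u v hu hv => ?_, h3⟩
    have h4 := c.mono p (show b < b + 1 by omega)
    exact c.mem_MV hκ (h2 i p _ (c.φ p (b + 1) - 1) u v hu
      (hM p b _ (by omega) (by omega) hv))

/-! ### twists -/

omit [IsScalarTower k F E] [FiniteDimensional F E] [IsScalarTower k F W]
  [FiniteDimensional F W] in
theorem AltV.tw {θ : P → ℤ}
    (h : (∃ u v, qM (φ u) (φ v) ≠ 0) ∨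
      ∃ β : Fin 2 → LinearMap.BilinForm F E, (∀ i u v, β i u v = - β i v u) ∧
        (∀ i p a b u v, φ u ∈ (M.ch p).L a → φ v ∈ (M.ch p).L b →
          β i u v ∈ (C.pl p).M (C.per p) (a + b)) ∧ LinearIndependent k β)
    (hθ : ∀ p, κ p = 2 * θ p) (hf : {p | θ p ≠ 0}.Finite) :
    AltV κ (M.twist θ hf) qM φ := by
  rcases h with h | ⟨β, h1, h2, h3⟩
  · exact Or.inl h
  · refine Or.inr ⟨β, h1, fun i p a b u v hu hv => ?_, h3⟩
    have h4 := h2 i p (a - θ p) (b - θ p) u v hu hv
    rwa [show a - θ p + (b - θ p) = a + b - κ p by rw [hθ p]; ring] at h4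

omit [IsScalarTower k F E] [FiniteDimensional F E] [IsScalarTower k F W]
  [FiniteDimensional F W] in
theorem AltV.tw0 {θ : P → ℤ} (h : AltV (fun _ => 0) M qM φ)
    (hθ : ∀ p, κ p = 2 * θ p) (hf : {p | θ p ≠ 0}.Finite) :
    AltV κ (M.twist θ hf) qM φ := by
  refine AltV.tw ?_ hθ hf
  rcases h with h | ⟨β, h1, h2, h3⟩
  · exact Or.inl h
  · refine Or.inr ⟨β, h1, fun i p a b u v hu hv => ?_, h3⟩
    have h4 := h2 i p a b u v hu hv
    rwa [sub_zero] at h4

end Vale.Agent.P182.H668
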