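import Vale.Agent.P182.H563.L3In
import Vale.Agent.P182.H668.Final

/-!
# The input of the exclusion of case (B2) in the parity-free normal form

`N` carries a perfect symmetric form of shift `0`, the bundle `M` carries one with values in the
dualizing sheaf (shift `-κ`), and `S` is paired with itself with values in the dualizing sheaf.
No square root of `κ` is needed.
-/

set_option linter.unusedSectionVars false

namespace Vale.Agent.P182.H563

open LinearMap Submodule Module Vale.Agent.P182 Vale.Agent.P182.H430 Vale.Agent.P182.H578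
  Vale.Agent.P182.H668
open Vale.Agent.P182.H388 (Mor mor_iff mor_subtype mor_mkQ)
open Vale.Agent.P182.H735 (Lg KMor NoExt rep rep_spec mkQ_eq_iff mkQ_eq_zero_iff exists_extension
  exists_op)

variable {k F P : Type*} [Field k] [Field F] [Algebra k F] {C : Curve k F P} {κ : P → ℤ}
variable {E : Type*} [AddCommGroup E] [Module F E] [Module k E] [IsScalarTower k F E]
  [FiniteDimensional F E]
variable {W : Type*} [AddCommGroup W] [Module F W] [Module k W] [IsScalarTower k F W]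
  [FiniteDimensional F W]
variable {U : Type*} [AddCommGroup U] [Module F U] [Module k U] [IsScalarTower k F U]
  [FiniteDimensional F U]
variable {T : Type*} [AddCommGroup T] [Module F T] [Module k T] [IsScalarTower k F T]
  [FiniteDimensional F T]

/-- `H⁰ (Λ² S^* ⊗ K)` -/
def SkV (κ : P → ℤ) (S : Bun C U) : Submodule k (LinearMap.BilinForm F U) where
  carrier := {c | (∀ u v, c u v = - c v u) ∧ ∀ p a b u v, u ∈ (S.ch p).L a → v ∈ (S.ch p).L b →
    c u v ∈ (C.pl p).M (C.per p) (a + b - κ p)}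
  add_mem' := by
    rintro c d ⟨hc, hc'⟩ ⟨hd, hd'⟩
    refine ⟨fun u v => ?_, fun p a b u v hu hv => ?_⟩
    · rw [LinearMap.add_apply, LinearMap.add_apply, LinearMap.add_apply, LinearMap.add_apply,
        hc u v, hd u v]; ring
    · exact add_mem (hc' p a b u v hu hv) (hd' p a b u v hu hv)
  zero_mem' := ⟨fun u v => by simp, fun p a b u v _ _ => zero_mem _⟩
  smul_mem' := by
    rintro r c ⟨hc, hc'⟩
    refine ⟨fun u v => ?_, fun p a b u v hu hv => ?_⟩
    · rw [LinearMap.smul_apply, LinearMap.smul_apply, LinearMap.smul_apply, LinearMap.smul_apply,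
        hc u v, smul_neg]
    · rw [LinearMap.smul_apply, LinearMap.smul_apply]
      exact Submodule.smul_mem _ _ (hc' p a b u v hu hv)

theorem mem_skV {S : Bun C U} {c : LinearMap.BilinForm F U} : c ∈ SkV κ S ↔
    (∀ u v, c u v = - c v u) ∧ ∀ p a b u v, u ∈ (S.ch p).L a → v ∈ (S.ch p).L b →
    c u v ∈ (C.pl p).M (C.per p) (a + b - κ p) := Iff.rfl

/-- **THE INPUT (H) in normal form**: `N` has shift `0`, `M` and `S` have shift `-κ`. -/
structure InpV (κ : P → ℤ) (N : Bun C E) (b : LinearMap.BilinForm F E) (M : Bun C W)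
    (q : LinearMap.BilinForm F W) (S : Bun C U) (x : E →ₗ[F] U) (φ : E →ₗ[F] W) : Prop where
  hκ : Dualizing C κ
  oN : Orth N b
  oM : OrthV κ M q
  /-- nilpotent symmetric / skew Higgs fields of `N` vanish (N1, N4) -/
  nil : ∀ ε : F, (ε = 1 ∨ ε = -1) → ∀ Θ ∈ adj b ε, KMor κ N N Θ → IsNilpotent Θ → Θ = 0
  mx : Mor N S x
  mφ : Mor N M φ
  /-- `Hom (N, M) = k φ` -/
  hφ : ∀ f, Mor N M f → ∃ c : k, f = c • φ
  /-- `φ φ^* ≠ 0` -/
  φφ : ∀ φs : W →ₗ[F] E, (∀ w e, b (φs w) e = q w (φ e)) → φ ∘ₗ φs ≠ 0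
  /-- `Ext (S, M) = 0` -/
  ext : NoExt κ S M
  /-- `H⁰ (Λ² S^* ⊗ K) ≠ 0` -/
  hC : ∃ c ∈ SkV κ S, c ≠ 0
  /-- every element of `Hom (N, S^* ⊗ K)` is `c x` -/
  hz : ∀ z : E →ₗ[F] U →ₗ[F] F, (∀ p a c e u, e ∈ (N.ch p).L a → u ∈ (S.ch p).L c →
    z e u ∈ (C.pl p).M (C.per p) (a + c - κ p)) → ∃ c ∈ SkV κ S, ∀ e u, z e u = c (x e) u
  /-- `x^* c x = 0` implies `c = 0` -/
  inj : ∀ c ∈ SkV κ S, (∀ e e', c (x e) (x e') = 0) → c = 0

section kill

variable {N : Bun C E} {b : LinearMap.BilinForm F E} {M : Bun C W} {q : LinearMap.BilinForm F W}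
  {A : Submodule F E}

theorem isForm_of_orth (h : Orth N b) : H533.IsForm b := ⟨h.symm, h.nd⟩

/-- transposition: `Ext (Z, M) = 0` implies `Hom (Z^* ⊗ K, M ⊗ K) = 0` -/
theorem noKMor_dV (hκ : Dualizing C κ) (oM : OrthV κ M q) {Z : Bun C T}
    (hZ : NoExt κ Z M) : ∀ g : Dual F T →ₗ[F] W, KMor κ (dV hκ Z) M g → g = 0 := by
  intro g hg
  let gt : W →ₗ[F] T := (Module.evalEquiv F T).symm.toLinearMap ∘ₗ
    ((LinearMap.lcomp F F g) ∘ₗ q.flip)
  have hgt : ∀ (w : W) (ξ : Dual F T), ξ (gt w) = q (g ξ) w := by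
    intro w ξ
    have h1 : Module.evalEquiv F T (gt w) = (LinearMap.lcomp F F g) (q.flip w) :=
      LinearEquiv.apply_symm_apply _ _
    have h2 := LinearMap.congr_fun h1 ξ
    exact h2
  have h0 : gt = 0 := by
    apply hZ
    intro p a w hw
    rw [LChain.mem_iff_dual]
    intro c ξ hξ
    rw [hgt]
    have hξ' : ξ ∈ ((dV hκ Z).ch p).L (c + κ p) := by
      rw [mem_dV]
      intro b' y hy
      have := hξ b' y hy
      rwa [show c + κ p + b' - κ p = b' + c by ring]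
    have h1 := (oM.dual p _ _).1 (hg p _ ξ hξ') a w hw
    rwa [show c + κ p - κ p + a - κ p = a - κ p + c by ring] at h1
  apply LinearMap.ext
  intro ξ
  apply oM.nd
  intro w
  rw [← hgt, h0]
  simp

/-- `Hom (A^⊥, Z) = 0` for every `Z` with `Ext (Z, M) = 0` -/
theorem killV_sub (hκ : Dualizing C κ) (oN : Orth N b) (oM : OrthV κ M q) (hA : Lg N M A)
    {Z : Bun C T} (hZ : NoExt κ Z M) : H735.NoHom (N.sub (H533.perp b A)) Z := by
  intro v hv
  obtain ⟨v0, hv0⟩ := LinearMap.exists_extend v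
  have hv0' : ∀ y : H533.perp b A, v0 y = v y := fun y => LinearMap.congr_fun hv0 y
  let R := rep b oN.nd
  have hR : ∀ η y, b (R η) y = η y := rep_spec oN.nd
  have hpp := H62.perp_perp (isForm_of_orth oN) A
  let f : Dual F T →ₗ[F] E ⧸ A := A.mkQ ∘ₗ R ∘ₗ (LinearMap.lcomp F F v0)
  have hf : ∀ ξ : Dual F T, f ξ = A.mkQ (R (ξ ∘ₗ v0)) := fun ξ => rfl
  have h1 : KMor κ (dV hκ Z) (N.quo A) f := by
    intro p c ξ hξ
    obtain ⟨ψ, hψ, hψv⟩ := LChain.hom_sub_surj (N.ch p) (Z.ch p) (H533.perp b A) (c := 0) (φ := v)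
      (fun a x hx => by rw [add_zero]; exact hv p a x hx)
    refine ((N.ch p).mem_quo A (c - κ p) (f ξ)).2 ⟨R (ξ ∘ₗ ψ), ?_, ?_⟩
    · rw [oN.dual]
      intro a y hy
      rw [hR]
      have h2 : ψ y ∈ (Z.ch p).L (a + 0) := hψ a y hy
      rw [add_zero] at h2
      have h3 : ξ (ψ y) ∈ (C.pl p).M (C.per p) (c + a - κ p) := (mem_dV hκ Z p c ξ).1 hξ a _ h2
      have h4 : c - κ p + a = c + a - κ p := by ring
      rw [h4]
      exact h3
    · rw [hf, mkQ_eq_iff, ← hpp]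
      intro y hy
      rw [map_sub, LinearMap.sub_apply, hR, hR]
      have h5 : ψ y = v ⟨y, hy⟩ := LinearMap.congr_fun hψv ⟨y, hy⟩
      have h6 : v0 y = v ⟨y, hy⟩ := hv0' ⟨y, hy⟩
      show ξ (ψ y) - ξ (v0 y) = 0
      rw [h5, h6, sub_self]
  have h2 : f = 0 := hA.noKMor_quo κ (noKMor_dV hκ oM hZ) f h1
  apply LinearMap.ext
  intro y
  rw [LinearMap.zero_apply, ← Module.forall_dual_apply_eq_zero_iff F]
  intro ξ
  have h3 : A.mkQ (R (ξ ∘ₗ v0)) = 0 := by rw [← hf, h2]; rfl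
  rw [mkQ_eq_zero_iff, ← hpp] at h3
  have h4 := h3 y y.2
  rw [hR] at h4
  rw [← hv0' y]
  exact h4

/-- every morphism `N → Z` kills `A^⊥` when `Ext (Z, M) = 0` -/
theorem killV (hκ : Dualizing C κ) (oN : Orth N b) (oM : OrthV κ M q) (hA : Lg N M A)
    {Z : Bun C T} (hZ : NoExt κ Z M) {w : E →ₗ[F] T} (hw : Mor N Z w) :
    ∀ n ∈ perp b A, w n = 0 := by
  intro n hn
  rw [← perp_eq oN.symm A] at hn
  have h1 := killV_sub hκ oN oM hA hZ (w ∘ₗ (H533.perp b A).subtype) fun p a x hx => hw p a x hx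
  exact LinearMap.congr_fun h1 ⟨n, hn⟩

/-- `Ext (N / A, Z^* ⊗ K) = 0` when `Ext (Z, M) = 0` -/
theorem noExt_quo_dV (hκ : Dualizing C κ) (oM : OrthV κ M q) (hA : Lg N M A) {Z : Bun C T}
    (hZ : NoExt κ Z M) : NoExt (U := Dual F T) κ (N.quo A) (dV hκ Z) :=
  hA.noKMor_quo κ (noKMor_dV hκ oM hZ)

end kill

section main

variable {N : Bun C E} {b : LinearMap.BilinForm F E} {M : Bun C W}
  {q : LinearMap.BilinForm F W} {S : Bun C U} {x : E →ₗ[F] U} {φ : E →ₗ[F] W}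
  {A : Submodule F E}

theorem mem_Lam_iff (hκ : Dualizing C κ) {c : LinearMap.BilinForm F U} :
    c ∈ SkV κ S ↔ (c : U →ₗ[F] Dual F U) ∈ Lam (T := Dual F U) S (dV hκ S) LinearMap.id := by
  constructor
  · intro h
    exact ⟨fun p a s hs => (mem_dV hκ S p a (c s)).2 fun b' t ht => h.2 p a b' s t hs ht, h.1⟩
  · intro h
    exact ⟨h.2, fun p a b' s t hs ht => (mem_dV hκ S p a (c s)).1 (h.1 p a s hs) b' t ht⟩

/-- (Ξ): a form vanishing on `A` vanishes -/
theorem InpV.xi (I : InpV κ N b M q S x φ) (hA : Lg N M A) {c : LinearMap.BilinForm F U}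
    (hc : c ∈ SkV κ S) (h : ∀ e ∈ A, ∀ e' ∈ A, c (x e) (x e') = 0) : c = 0 := by
  obtain ⟨Ξ, hΞ⟩ := exists_op I.oN.nd (LinearMap.compl₁₂ c x x)
  have hΞ' : ∀ e e', b (Ξ e) e' = c (x e) (x e') := hΞ
  have hpp := H62.perp_perp (isForm_of_orth I.oN) A
  have hx : ∀ n ∈ H533.perp b A, x n = 0 := by
    rw [perp_eq I.oN.symm A]
    exact killV I.hκ I.oN I.oM hA I.ext I.mx
  have h1 : Ξ ∈ adj b (-1 : F) := by
    intro e e'
    rw [hΞ', hc.1, ← hΞ', I.oN.symm]; ring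
  have h2 : KMor κ N N Ξ := by
    intro p a e he
    rw [I.oN.dual]
    intro c' e' he'
    rw [hΞ']
    have h3 := hc.2 p a c' _ _ (I.mx p a e he) (I.mx p c' e' he')
    have h4 : a - κ p + c' = a + c' - κ p := by ring
    rwa [h4]
  have hker : ∀ n ∈ H533.perp b A, Ξ n = 0 := by
    intro n hn
    apply I.oN.nd
    intro y
    rw [hΞ', hx n hn]; simp
  have him : ∀ e, Ξ e ∈ A := by
    intro e
    rw [← hpp]
    intro y hy
    rw [hΞ', hx y hy]; simp
  have him2 : ∀ a ∈ A, Ξ a ∈ H533.perp b A := by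
    intro a ha y hy
    rw [hΞ', h a ha y hy]
  have h3 : Ξ ^ 3 = 0 := by
    apply LinearMap.ext
    intro e
    show Ξ (Ξ (Ξ e)) = 0
    exact hker _ (him2 _ (him e))
  have h4 : Ξ = 0 := I.nil (-1) (Or.inr rfl) Ξ h1 h2 ⟨3, h3⟩
  apply I.inj c hc
  intro e e'
  rw [← hΞ', h4]; simp

/-- the adjoint of `φ` -/
theorem InpV.exists_φs (I : InpV κ N b M q S x φ) :
    ∃ φs : W →ₗ[F] E, ∀ w e, b (φs w) e = q w (φ e) :=
  ⟨rep b I.oN.nd ∘ₗ (LinearMap.compl₂ q φ), fun w e => rep_spec I.oN.nd _ e⟩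

/-- a multiple of `φ` that kills `A^⊥` is zero -/
theorem InpV.φ_perp (I : InpV κ N b M q S x φ) (hA : Lg N M A) {c : k}
    (h : ∀ n ∈ perp b A, c • φ n = 0) : c • φ = 0 := by
  obtain ⟨φs, hφs⟩ := I.exists_φs
  have h1 : φ ∘ₗ A.subtype = 0 := hA.no _ fun p a x hx => I.mφ p a x hx
  have h2 : ∀ w, φs w ∈ perp b A := by
    intro w
    rw [mem_perp]
    intro a ha
    rw [I.oN.symm, hφs]
    have : φ a = 0 := LinearMap.congr_fun h1 ⟨a, ha⟩
    rw [this, map_zero]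
  by_cases hc : c = 0
  · rw [hc, zero_smul]
  · exfalso
    apply I.φφ φs hφs
    apply LinearMap.ext
    intro w
    have h3 := h _ (h2 w)
    have h4 : c⁻¹ • (c • φ (φs w)) = 0 := by rw [h3, smul_zero]
    rwa [smul_smul, inv_mul_cancel₀ hc, one_smul] at h4

/-- the properties of `S` and `x` -/
theorem InpV.hs (I : InpV κ N b M q S x φ) (hA : Lg N M A) :
    HS (T := Dual F U) κ N A M S (dV I.hκ S) LinearMap.id x where
  dual := kDual_dV I.hκ _
  mx := I.mx
  ext := (H735.noExt_iff I.hκ).1 I.ext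
  hz z hz := by
    obtain ⟨c, hc, h⟩ := I.hz z (fun p a c e u he hu =>
      (mem_dV I.hκ S p _ (z e)).1 (hz p a e he) c u hu)
    exact ⟨c, (mem_Lam_iff I.hκ).1 hc, fun e => LinearMap.ext fun u => h e u⟩
  inj d hd h := I.xi hA ((mem_Lam_iff I.hκ).2 hd) h
  ne := by
    obtain ⟨c, hc, hc0⟩ := I.hC
    intro h0
    apply hc0
    have h1 := (mem_Lam_iff I.hκ).1 hc
    rw [h0] at h1
    exact (Submodule.mem_bot k).1 h1

/-- **THE REDUCTION** in normal form -/
theorem InpV.reduce [IsAlgClosed k] (I : InpV κ N b M q S x φ) (hA : Lg N M A) :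
    ∃ X : Submodule F U,
      HS (T := Dual F (U ⧸ X)) κ N A M (S.quo X) (dV I.hκ (S.quo X)) LinearMap.id (X.mkQ ∘ₗ x) ∧
      NoExt κ (S.quo X) M ∧
      (∀ w, Mor (N.sub A) (S.quo X) w → ∃ a : k, w = a • (X.mkQ ∘ₗ x ∘ₗ A.subtype)) ∧
      NoHom (N.quo A) (S.quo X) := by
  have h := I.hs hA
  have hκ := I.hκ
  obtain ⟨X, hX1, hX2, hX3, hX4, hX5⟩ := exists_quo (k := k) (B := b) (M := M)
    (β := (LinearMap.id : Dual F U →ₗ[F] U →ₗ[F] F)) (D := dV I.hκ S) I.mx
    (fun f hf => hA.no f (mor_iff.2 hf)) h.ext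
    (fun X hX w hw u hu => killV hκ I.oN I.oM hA ((H735.noExt_iff hκ).2 hX) hw u hu)
    (fun ψ hψ hk => by
      obtain ⟨c, rfl⟩ := I.hφ ψ hψ
      exact I.φ_perp hA fun n hn => hk n hn)
    (fun z hz => by
      obtain ⟨g, hg, hgz⟩ := exists_extension (U := Dual F U) (B := dV hκ S)
        ((H735.noExt_iff hκ).1 (noExt_quo_dV hκ I.oM hA I.ext)) hz
      obtain ⟨c, hc, h1⟩ := h.hz g hg
      exact ⟨c, hc, fun a => by rw [← hgz, h1]⟩)
    h.hz h.inj h.ne
  have h6 := h.quo (kDual_dV hκ (S.quo X)) hX1 hX2 hX5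
  exact ⟨X, h6, (H735.noExt_iff hκ).2 h6.ext, hX3, hX4⟩

/-- `φ φ^* ≠ 0` -/
theorem InpV.hpp (I : InpV κ N b M q S x φ) :
    ∃ u v, (∀ w, φ w = 0 → b u w = 0) ∧ (∀ w, φ w = 0 → b v w = 0) ∧ b u v ≠ 0 := by
  obtain ⟨φs, hφs⟩ := I.exists_φs
  have h1 := I.φφ φs hφs
  obtain ⟨w0, hw0⟩ : ∃ w0, φ (φs w0) ≠ 0 := by
    by_contra h
    push Not at h
    exact h1 (LinearMap.ext h)
  obtain ⟨w1, hw1⟩ : ∃ w1, q (φ (φs w0)) w1 ≠ 0 := by
    by_contra h
    push Not at h
    exact hw0 (I.oM.nd _ h)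
  refine ⟨φs w0, φs w1, fun w hw => ?_, fun w hw => ?_, ?_⟩
  · rw [hφs, hw, map_zero]
  · rw [hφs, hw, map_zero]
  · rw [I.oN.symm, hφs, I.oM.symm]
    exact hw1

/-- **(Y)** for the reduced data -/
theorem InpV.y_of (I : InpV κ N b M q S x φ)
    {V : Type*} [AddCommGroup V] [Module F V] [Module k V] [IsScalarTower k F V]
    [FiniteDimensional F V] {S₁ : Bun C V} {y : E →ₗ[F] V}
    (h : HS (T := Dual F V) κ N A M S₁ (dV I.hκ S₁) LinearMap.id y)
    (z : E →ₗ[F] Dual F V) (hz : Mor N (dV I.hκ S₁) z)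
    (Z : E →ₗ[F] E) (hZ : ∀ u v, b (Z u) v = z u (y v)) (hn : IsNilpotent Z) : z = 0 := by
  obtain ⟨c, hc, h'⟩ := h.hz z hz
  have hc2 := (mem_Lam_iff I.hκ (c := c)).2 hc
  have hZ' : ∀ u v, b (Z u) v = c (y u) (y v) := fun u v => by rw [hZ, h']
  have hZ0 : Z = 0 := by
    refine I.nil (-1) (Or.inr rfl) Z ?_ ?_ hn
    · intro u v
      rw [hZ', hc2.1, ← hZ', I.oN.symm]
      ring
    · intro p a e he
      rw [I.oN.dual]
      intro c' e' he'
      rw [hZ']
      have h3 := hc2.2 p a c' _ _ (h.mx p a e he) (h.mx p c' e' he')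
      rwa [show a - κ p + c' = a + c' - κ p by ring]
  have hc0 : c = 0 := by
    apply h.inj c hc
    intro e _ e' _
    show c (y e) (y e') = 0
    rw [← hZ', hZ0]
    simp
  apply LinearMap.ext
  intro e
  rw [h', hc0]
  rfl

theorem higgs_iff_kMor {Θ : E →ₗ[F] E} : Higgs κ N Θ ↔ KMor κ N N Θ := by
  constructor
  · intro h p a x hx
    exact mem_HZ.1 h p a x hx
  · intro h
    exact mem_HZ.2 fun p a x hx => h p a x hx

theorem skew_zero (h2 : (2 : F) ≠ 0) {c : LinearMap.BilinForm F U}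
    (h : ∀ s t, c s t = - c t s) (s : U) : c s s = 0 := by
  have h1 : (2 : F) * c s s = 0 := by linear_combination h s s
  exact (mul_eq_zero.1 h1).resolve_left h2

theorem zero_skew {c : LinearMap.BilinForm F U}
    (h : ∀ s, c s s = 0) (s t : U) : c s t = - c t s := by
  have h1 := h (s + t)
  rw [map_add, map_add, LinearMap.add_apply, LinearMap.add_apply, h, h] at h1
  linear_combination h1

/-- **THE INPUT OF THE SPLITTING**, in normal form -/
theorem exists_l3InV [IsAlgClosed k] (h2 : (2 : F) ≠ 0) (I : InpV κ N b M q S x φ) :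
    ∃ (A : Submodule F E) (X : Submodule F U),
      L3In I.hκ N b M q (S.quo X) (X.mkQ ∘ₗ x) φ A := by
  obtain ⟨A, hA⟩ := H735.exists_largest N M
  obtain ⟨X, h, hE, hone, hno⟩ := I.reduce hA
  have hκ := I.hκ
  have hperp : ∀ u ∈ perp b A, (X.mkQ ∘ₗ x) u = 0 := killV hκ I.oN I.oM hA hE h.mx
  have hr := h.rhom hκ I.oN.pair hperp hone hno
  refine ⟨A, X, ?_⟩
  exact
    { oN := I.oN
      oM := I.oM
      nil := fun ε hε Θ hΘ h hn => I.nil ε hε Θ hΘ (higgs_iff_kMor.1 h) hn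
      mφ := mor_iff.1 I.mφ
      hφ := fun ψ hψ => I.hφ ψ (mor_iff.2 hψ)
      hpp := I.hpp
      ext := h.ext
      mx := mor_iff.1 h.mx
      hx := fun ψ hψ => hr.1 ψ (mor_iff.2 hψ)
      Ano := fun f hf => hA.no f (mor_iff.2 hf)
      Amax := fun G hG => hA.max G fun f hf => hG f (mor_iff.1 hf)
      hxA := fun ψ hψ => hone ψ (mor_iff.2 hψ)
      Fno := hno
      Fext := hr.2.1
      Pno := by
        rw [← perp_eq I.oN.symm A]
        exact fun f hf => killV_sub hκ I.oN I.oM hA hE f (mor_iff.2 hf)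
      Pext := hr.2.2
      xperp := hperp
      FnoD := h.noHomFD
      PnoD := h.noHomPD hκ I.oN.pair hr.2.1
      hz := fun z hz => by
        obtain ⟨c, hc, h'⟩ := h.hz z (mor_iff.2 hz)
        have hc2 := (mem_Lam_iff hκ (c := c)).2 hc
        exact ⟨c, skew_zero h2 hc2.1, fun p a s hs b' t ht => hc2.2 p a b' s t hs ht,
          fun e t => by rw [h']⟩
      Y := fun z hz Z hZ hn => I.y_of h z (mor_iff.2 hz) Z hZ hn
      c_ne := by
        obtain ⟨c, hc, hc0⟩ := Submodule.exists_mem_ne_zero_of_ne_bot h.ne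
        have hc2 := (mem_Lam_iff hκ (c := c)).2 hc
        exact ⟨c, hc0, skew_zero h2 hc2.1, fun p a s hs b' t ht => hc2.2 p a b' s t hs ht⟩
      c_inj := fun c h1 h3 h4 => by
        refine h.inj c ((mem_Lam_iff hκ).1 ⟨zero_skew h1, fun p a b' s t hs ht => ?_⟩) h4
        exact h3 p a s hs b' t ht }

end main

end Vale.Agent.P182.H563

namespace Vale.Agent.P182.H668

open LinearMap Submodule Module Vale.Agent.P182 Vale.Agent.P182.H430 Vale.Agent.P182.H578

universe u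

variable {k F P : Type*} [Field k] [Field F] [Algebra k F] {C : Curve k F P} {κ : P → ℤ}
variable {E : Type u} [AddCommGroup E] [Module F E] [Module k E] [IsScalarTower k F E]
  [FiniteDimensional F E]
variable {W : Type u} [AddCommGroup W] [Module F W] [Module k W] [IsScalarTower k F W]
  [FiniteDimensional F W]
variable {U : Type u} [AddCommGroup U] [Module F U] [Module k U] [IsScalarTower k F U]
  [FiniteDimensional F U]
variable {N : Bun C E} {b : LinearMap.BilinForm F E} {M : Bun C W}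
  {q : LinearMap.BilinForm F W} {S : Bun C U} {x : E →ₗ[F] U} {φ : E →ₗ[F] W}

/-- **THE ENDGAME** in normal form (no square root of `κ`) -/
theorem endgame_inpV [IsAlgClosed k] (h2 : (2 : F) ≠ 0) (I : H563.InpV κ N b M q S x φ)
    (vv : VV N b) (alt : H361.AltM κ N M b q φ) : False := by
  obtain ⟨A, X, h⟩ := H563.exists_l3InV h2 I
  exact endgame (L3In.of563 h vv h2) h2 alt

/-- the same with the other form of the alternative -/
theorem endgame_inpV' [IsAlgClosed k] (h2 : (2 : F) ≠ 0) (I : H563.InpV κ N b M q S x φ)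
    (vv : VV N b) (alt : AltV κ M q φ) : False := by
  obtain ⟨A, X, h⟩ := H563.exists_l3InV h2 I
  exact endgame' (L3In.of563 h vv h2) h2 alt

end Vale.Agent.P182.H668
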