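import Vale.Agent.P182.H578.N1
import Vale.Agent.P182.H668.Numbers

/-!
# A nilpotent skew Higgs field on a versal orthogonal bundle vanishes
-/

namespace Vale.Agent.P182.H563

open LinearMap Submodule Module Vale.Agent.P182 Vale.Agent.P182.H430 Vale.Agent.P182.H578

section Flag

variable {F : Type*} [Field F] {E : Type*} [AddCommGroup E] [Module F E]
  {B : LinearMap.BilinForm F E}

/-- a self-dual filtration of finite length which is strictly decreased by `Y` -/
structure Flag (B : LinearMap.BilinForm F E) (Y : E →ₗ[F] E) (fil : ℤ → Submodule F E) :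
    Prop where
  anti : Antitone fil
  dual : ∀ i x, x ∈ fil i ↔ ∀ y ∈ fil (1 - i), B x y = 0
  bdd : ∃ M : ℕ, fil (-M) = ⊤ ∧ fil (M + 1) = ⊥
  deg : Y ∈ Ef fil 1

/-- nested projections -/
theorem exists_nested (fil : ℤ → Submodule F E) (hf : Antitone fil) {M : ℕ} (hM : fil (-M) = ⊤) :
    ∃ e : ℕ → (E →ₗ[F] E), e 0 = 1 ∧ (∀ (n : ℕ) x, e n x ∈ fil (-M + n)) ∧
      (∀ n : ℕ, ∀ x ∈ fil (-M + n), e n x = x) ∧ ∀ n x, e (n + 1) (e n x) = e (n + 1) x := by
  have hex : ∀ n : ℕ, ∃ q : E →ₗ[F] E, (∀ x, q x ∈ fil (-M + n)) ∧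
      ∀ x ∈ fil (-M + n), q x = x := by
    intro n
    obtain ⟨T, hT⟩ := (fil (-M + n)).exists_isCompl
    refine ⟨(fil (-M + n)).subtype ∘ₗ (fil (-M + n)).projectionOnto T hT, fun x => ?_,
      fun x hx => ?_⟩
    · exact ((fil (-M + n)).projectionOnto T hT x).2
    · have := Submodule.projectionOnto_apply_left hT ⟨x, hx⟩
      show (((fil (-M + n)).projectionOnto T hT x : fil (-M + n)) : E) = x
      rw [this]
  choose q hq1 hq2 using hex
  let e : ℕ → (E →ₗ[F] E) := fun n => Nat.rec 1 (fun n f => q (n + 1) * f) n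
  have e0 : e 0 = 1 := rfl
  have es : ∀ n, e (n + 1) = q (n + 1) * e n := fun n => rfl
  have key : ∀ n : ℕ, (∀ x, e n x ∈ fil (-M + n)) ∧ (∀ x ∈ fil (-M + n), e n x = x) := by
    intro n
    induction n with
    | zero =>
      refine ⟨fun x => ?_, fun x _ => ?_⟩
      · rw [show (-(M : ℤ) + ((0 : ℕ) : ℤ)) = -M by simp, hM]; trivial
      · rw [e0]; rfl
    | succ n ih =>
      refine ⟨fun x => ?_, fun x hx => ?_⟩
      · rw [es]; exact hq1 _ _
      · rw [es, Module.End.mul_apply, ih.2 x (hf (by push_cast; omega) hx), hq2 _ x hx]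
  refine ⟨e, e0, fun n => (key n).1, fun n => (key n).2, fun n x => ?_⟩
  rw [es, Module.End.mul_apply, Module.End.mul_apply, (key n).2 _ ((key n).1 x)]

/-- a connection preserving a filtration -/
theorem exists_conn_fil {fil : ℤ → Submodule F E} (hf : Antitone fil)
    (hb : ∃ M : ℕ, fil (-M) = ⊤ ∧ fil (M + 1) = ⊥) {δ : Derivation ℤ F F} {D : E → E}
    (hD : IsConn δ D) : ∃ D' : E → E, IsConn δ D' ∧ ∀ i, ∀ x ∈ fil i, D' x ∈ fil i := by
  obtain ⟨M, hM1, hM2⟩ := hb
  obtain ⟨e, e0, er, ei, en⟩ := exists_nested fil hf hM1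
  let ε : ℕ → (E →ₗ[F] E) := fun n => e n - e (n + 1)
  have hεr : ∀ (n : ℕ) x, ε n x ∈ fil (-M + n) := fun n x => by
    show e n x - e (n + 1) x ∈ _
    exact Submodule.sub_mem _ (er n x) (hf (by push_cast; omega) (er (n + 1) x))
  have hsum : ∑ n ∈ Finset.range (2 * M + 1), ε n = 1 := by
    rw [Finset.sum_range_sub', e0]
    have : e (2 * M + 1) = 0 := by
      apply LinearMap.ext
      intro x
      have h1 := er (2 * M + 1) x
      rw [show (-(M : ℤ) + ((2 * M + 1 : ℕ) : ℤ)) = M + 1 by push_cast; ring, hM2] at h1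
      exact h1
    rw [this, sub_zero]
  have hid : ∀ n x, ε n (ε n x) = ε n x := by
    intro n x
    have h1 : e n (e n x) = e n x := ei n _ (er n x)
    have h2 : e n (e (n + 1) x) = e (n + 1) x :=
      ei n _ (hf (by push_cast; omega) (er (n + 1) x))
    have h3 : e (n + 1) (e n x) = e (n + 1) x := en n x
    have h4 : e (n + 1) (e (n + 1) x) = e (n + 1) x := ei (n + 1) _ (er (n + 1) x)
    show e n (e n x - e (n + 1) x) - e (n + 1) (e n x - e (n + 1) x) = e n x - e (n + 1) x
    rw [map_sub, map_sub, h1, h2, h3, h4, sub_self, sub_zero]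
  refine ⟨fun x => ∑ n ∈ Finset.range (2 * M + 1), ε n (D (ε n x)), ⟨fun x y => ?_, fun f x => ?_⟩,
    fun i x hx => ?_⟩
  · show ∑ n ∈ Finset.range (2 * M + 1), ε n (D (ε n (x + y))) =
      ∑ n ∈ Finset.range (2 * M + 1), ε n (D (ε n x)) +
        ∑ n ∈ Finset.range (2 * M + 1), ε n (D (ε n y))
    rw [← Finset.sum_add_distrib]
    refine Finset.sum_congr rfl fun n _ => ?_
    rw [map_add, hD.1, map_add]
  · show ∑ n ∈ Finset.range (2 * M + 1), ε n (D (ε n (f • x))) =
      f • ∑ n ∈ Finset.range (2 * M + 1), ε n (D (ε n x)) + δ f • x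
    have h1 : ∀ n, ε n (D (ε n (f • x))) = f • ε n (D (ε n x)) + δ f • ε n x := by
      intro n
      rw [map_smul, hD.2, map_add, map_smul, map_smul, hid]
    rw [Finset.sum_congr rfl (fun n _ => h1 n), Finset.sum_add_distrib, ← Finset.smul_sum,
      ← Finset.smul_sum]
    have h2 : ∑ n ∈ Finset.range (2 * M + 1), ε n x = x := by
      have := LinearMap.congr_fun hsum x
      rwa [LinearMap.sum_apply] at this
    rw [h2]
  · have hD0 : D 0 = 0 := by
      have := hD.2 0 0
      simpa using this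
    refine Submodule.sum_mem _ fun n _ => ?_
    rcases le_or_gt i (-(M : ℤ) + n) with hi | hi
    · exact hf hi (hεr n _)
    · have h1 : ε n x = 0 := by
        show e n x - e (n + 1) x = 0
        rw [ei n x (hf hi.le hx), ei (n + 1) x (hf (by push_cast; omega) hx), sub_self]
      rw [h1, hD0, map_zero]
      exact Submodule.zero_mem _

variable [FiniteDimensional F E]

/-- a metric connection preserving a self-dual filtration -/
theorem exists_metric_fil (hs : ∀ x y, B x y = B y x) (hnd : ∀ x, (∀ y, B x y = 0) → x = 0)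
    (h2 : (2 : F) ≠ 0) {fil : ℤ → Submodule F E} (hf : Antitone fil)
    (hb : ∃ M : ℕ, fil (-M) = ⊤ ∧ fil (M + 1) = ⊥)
    (hdual : ∀ i x, x ∈ fil i ↔ ∀ y ∈ fil (1 - i), B x y = 0) {δ : Derivation ℤ F F} {D1 : E → E}
    (hD1 : IsConn δ D1) :
    ∃ D : E → E, IsConn δ D ∧ IsMetric B δ D ∧ ∀ i, ∀ x ∈ fil i, D x ∈ fil i := by
  obtain ⟨D, hD, hDf⟩ := exists_conn_fil hf hb hD1
  -- the defect form
  let G : LinearMap.BilinForm F E := LinearMap.mk₂ F
    (fun x y => δ (B x y) - B (D x) y - B x (D y))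
    (fun x x' y => by
      simp only [map_add, LinearMap.add_apply, hD.1]
      ring)
    (fun c x y => by
      simp only [map_smul, LinearMap.smul_apply, smul_eq_mul, hD.2, map_add, LinearMap.add_apply,
        Derivation.leibniz]
      ring)
    (fun x y y' => by
      simp only [map_add, hD.1]
      ring)
    (fun c x y => by
      simp only [map_smul, smul_eq_mul, hD.2, map_add, Derivation.leibniz]
      ring)
  have hG : ∀ x y, G x y = δ (B x y) - B (D x) y - B x (D y) := fun x y => rfl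
  have hinj : Function.Injective B := by
    rw [injective_iff_map_eq_zero]
    intro x hx
    exact hnd x fun y => by rw [hx]; rfl
  have hd : Module.finrank F E = Module.finrank F (E →ₗ[F] F) :=
    (Subspace.dual_finrank_eq (K := F) (V := E)).symm
  let e : E ≃ₗ[F] (E →ₗ[F] F) := LinearEquiv.ofInjectiveOfFinrankEq B hinj hd
  have he : ∀ x, e x = B x := fun x => rfl
  let A : E →ₗ[F] E := e.symm.toLinearMap ∘ₗ G
  have hA : ∀ x y, B (A x) y = G x y := by
    intro x y
    rw [← he]
    show e (e.symm (G x)) y = _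
    rw [LinearEquiv.apply_symm_apply]
  have hAf : ∀ i, ∀ x ∈ fil i, A x ∈ fil i := by
    intro i x hx
    rw [hdual]
    intro y hy
    rw [hA, hG, (hdual i x).1 hx y hy, (hdual i (D x)).1 (hDf i x hx) y hy,
      (hdual i x).1 hx (D y) (hDf _ y hy), map_zero, sub_zero, sub_zero]
  refine ⟨fun x => D x + (2 : F)⁻¹ • A x, ⟨fun x y => ?_, fun c x => ?_⟩, fun x y => ?_,
    fun i x hx => ?_⟩
  · show D (x + y) + (2 : F)⁻¹ • A (x + y) = (D x + (2 : F)⁻¹ • A x) + (D y + (2 : F)⁻¹ • A y)
    rw [hD.1, map_add, smul_add]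
    abel
  · show D (c • x) + (2 : F)⁻¹ • A (c • x) = c • (D x + (2 : F)⁻¹ • A x) + δ c • x
    rw [hD.2, map_smul, smul_add, smul_comm c]
    abel
  · have h1 := hG x y
    have h2' := hG y x
    have h3 : G x y = G y x := by
      rw [h1, h2', hs y x, hs (D y) x, hs y (D x)]
      ring
    rw [map_add, LinearMap.add_apply, map_smul, LinearMap.smul_apply, map_add, map_smul, hA,
      hs x (A y), hA, smul_eq_mul, smul_eq_mul, ← h3, h1]
    field_simp
    ring
  · exact Submodule.add_mem _ (hDf i x hx) (Submodule.smul_mem _ _ (hAf i x hx))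

/-- double orthogonal -/
theorem perp_perp (hs : ∀ x y, B x y = B y x) (hnd : ∀ x, (∀ y, B x y = 0) → x = 0)
    (U : Submodule F E) : perp B (perp B U) = U := by
  have hinj : Function.Injective B.flip := by
    rw [injective_iff_map_eq_zero]
    intro x hx
    refine hnd x fun y => ?_
    rw [hs]
    have := LinearMap.congr_fun hx y
    exact this
  have hd : Module.finrank F E = Module.finrank F (E →ₗ[F] F) :=
    (Subspace.dual_finrank_eq (K := F) (V := E)).symm
  let e : E ≃ₗ[F] (E →ₗ[F] F) := LinearEquiv.ofInjectiveOfFinrankEq B.flip hinj hd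
  have hp : ∀ W : Submodule F E, finrank F (perp B W) + finrank F W = finrank F E := by
    intro W
    have h1 : perp B W = W.dualAnnihilator.comap e.toLinearMap := rfl
    have h3 : finrank F (perp B W) = finrank F W.dualAnnihilator := by
      have h5 : (perp B W).map e.toLinearMap = W.dualAnnihilator := by
        rw [h1]
        exact Submodule.map_comap_eq_of_surjective e.surjective _
      rw [← h5]
      exact (LinearEquiv.finrank_map_eq e _).symm
    have h4 := Subspace.finrank_add_finrank_dualAnnihilator_eq W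
    omega
  symm
  apply Submodule.eq_of_le_of_finrank_eq
  · intro x hx
    rw [mem_perp]
    intro y hy
    rw [hs]
    exact mem_perp.1 hy x hx
  · have h1 := hp U
    have h2 := hp (perp B U)
    omega

/-- existence of a self-dual filtration for a nilpotent skew operator -/
theorem exists_flag (hs : ∀ x y, B x y = B y x) (hnd : ∀ x, (∀ y, B x y = 0) → x = 0)
    {Y : E →ₗ[F] E} (hY : Y ∈ adj B (-1)) (hn : IsNilpotent Y) : ∃ fil, Flag B Y fil := by
  have hY' : ∀ x y, B (Y x) y = - B x (Y y) := fun x y => by rw [hY x y, neg_one_mul]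
  -- a maximal isotropic stable subspace
  let T : Set (Submodule F E) := {J | (∀ x ∈ J, ∀ y ∈ J, B x y = 0) ∧ ∀ x ∈ J, Y x ∈ J}
  have hT0 : (⊥ : Submodule F E) ∈ T := by
    refine ⟨?_, ?_⟩
    · intro x hx y _
      rw [(Submodule.mem_bot F).1 hx, map_zero, LinearMap.zero_apply]
    · intro x hx
      rw [(Submodule.mem_bot F).1 hx, map_zero]
      exact Submodule.zero_mem _
  obtain ⟨J, hJT, hJmax⟩ := WellFounded.has_min (wellFounded_gt (α := Submodule F E)) T ⟨⊥, hT0⟩
  obtain ⟨hJi, hJs⟩ := hJT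
  have hJp : ∀ x ∈ perp B J, Y x ∈ perp B J := by
    intro x hx
    rw [mem_perp]
    intro y hy
    have h1 : B (Y y) x = 0 := mem_perp.1 hx _ (hJs y hy)
    rw [hY'] at h1
    exact neg_eq_zero.1 h1
  have hpow : ∀ n, ∀ x ∈ perp B J, (Y ^ n) x ∈ perp B J := by
    intro n
    induction n with
    | zero => intro x hx; exact hx
    | succ n ih =>
      intro x hx
      rw [pow_succ', Module.End.mul_apply]
      exact hJp _ (ih x hx)
  have hskew : ∀ x y, B (Y x) y = - B x (Y y) := hY'
  have hJY : ∀ x ∈ perp B J, Y x ∈ J := by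
    by_contra hcon
    push Not at hcon
    -- the smallest power mapping into `J`
    obtain ⟨m, hm⟩ := hn
    have hex : ∃ n, ∀ x ∈ perp B J, (Y ^ n) x ∈ J := ⟨m, fun x _ => by
      rw [hm]; exact Submodule.zero_mem _⟩
    classical
    let n := Nat.find hex
    have hnJ : ∀ x ∈ perp B J, (Y ^ n) x ∈ J := Nat.find_spec hex
    have hmin : ∀ j < n, ¬ ∀ x ∈ perp B J, (Y ^ j) x ∈ J := fun j hj => Nat.find_min hex hj
    have hn2 : 2 ≤ n := by
      by_contra h
      have h01 : n = 0 ∨ n = 1 := by omega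
      obtain ⟨x, hx, hxJ⟩ := hcon
      rcases h01 with h0 | h1
      · rw [h0] at hnJ
        exact hxJ (hJs x (hnJ x hx))
      · rw [h1, pow_one] at hnJ
        exact hxJ (hnJ x hx)
    obtain ⟨r, hr⟩ : ∃ r, n = r + 2 := ⟨n - 2, by omega⟩
    have hmin' := hmin (r + 1) (by omega)
    push Not at hmin'
    obtain ⟨x0, hx0, hx0J⟩ := hmin'
    let J' : Submodule F E := J ⊔ (perp B J).map (Y ^ (r + 1))
    have hJJ' : J < J' := by
      refine lt_of_le_of_ne le_sup_left fun h => hx0J ?_
      rw [h]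
      exact Submodule.mem_sup_right ⟨x0, hx0, rfl⟩
    refine hJmax J' ⟨?_, ?_⟩ hJJ'
    · intro x hx y hy
      obtain ⟨a, ha, _, ⟨b, hb, rfl⟩, rfl⟩ := Submodule.mem_sup.1 hx
      obtain ⟨a', ha', _, ⟨b', hb', rfl⟩, rfl⟩ := Submodule.mem_sup.1 hy
      have h1 : B a a' = 0 := hJi a ha a' ha'
      have h2 : B a ((Y ^ (r + 1)) b') = 0 := mem_perp.1 (hpow _ b' hb') a ha
      have h3 : B ((Y ^ (r + 1)) b) a' = 0 := by
        rw [hs]; exact mem_perp.1 (hpow _ b hb) a' ha'
      have h4 : B ((Y ^ (r + 1)) b) ((Y ^ (r + 1)) b') = 0 := by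
        have h5 : (Y ^ (r + 1)) b' = Y ((Y ^ r) b') := by
          rw [pow_succ', Module.End.mul_apply]
        have h6 : Y ((Y ^ (r + 1)) b) = (Y ^ n) b := by
          rw [hr, show r + 2 = (r + 1) + 1 from rfl, pow_succ' Y (r + 1), Module.End.mul_apply]
        have h7 := hskew ((Y ^ (r + 1)) b) ((Y ^ r) b')
        rw [h6, mem_perp.1 (hpow r b' hb') _ (hnJ b hb)] at h7
        rw [h5]
        exact neg_eq_zero.1 h7.symm
      rw [map_add, map_add, LinearMap.add_apply, LinearMap.add_apply, h1, h2, h3, h4]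
      simp
    · intro x hx
      obtain ⟨a, ha, _, ⟨b, hb, rfl⟩, rfl⟩ := Submodule.mem_sup.1 hx
      rw [map_add]
      refine Submodule.mem_sup_left (Submodule.add_mem _ (hJs a ha) ?_)
      have h6 : Y ((Y ^ (r + 1)) b) = (Y ^ n) b := by
        rw [hr, show r + 2 = (r + 1) + 1 from rfl, pow_succ' Y (r + 1), Module.End.mul_apply]
      rw [h6]
      exact hnJ b hb
  -- powers on `J`
  let U : ℕ → Submodule F E := fun n => J.map (Y ^ n)
  have hU0 : U 0 = J := by
    show J.map (Y ^ 0) = J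
    rw [pow_zero]
    exact Submodule.map_id J
  have hUY : ∀ n x, x ∈ U n → Y x ∈ U (n + 1) := by
    rintro n _ ⟨x, hx, rfl⟩
    refine ⟨x, hx, ?_⟩
    rw [pow_succ', Module.End.mul_apply]
  have hUanti : ∀ n, U (n + 1) ≤ U n := by
    rintro n _ ⟨x, hx, rfl⟩
    refine ⟨Y x, hJs x hx, ?_⟩
    rw [pow_succ, Module.End.mul_apply]
  have hUanti' : Antitone U := antitone_nat_of_succ_le hUanti
  have hUp : ∀ n x, x ∈ perp B (U (n + 1)) → Y x ∈ perp B (U n) := by
    intro n x hx
    rw [mem_perp]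
    intro y hy
    have h1 := mem_perp.1 hx _ (hUY n y hy)
    rw [hY'] at h1
    exact neg_eq_zero.1 h1
  have hperp_anti : ∀ {W W' : Submodule F E}, W ≤ W' → perp B W' ≤ perp B W := by
    intro W W' h x hx
    rw [mem_perp] at hx ⊢
    exact fun y hy => hx y (h hy)
  let fil : ℤ → Submodule F E := fun i => if 1 ≤ i then U (i - 1).toNat else perp B (U (-i).toNat)
  have fpos : ∀ i : ℤ, 1 ≤ i → fil i = U (i - 1).toNat := fun i hi => if_pos hi
  have fneg : ∀ i : ℤ, i ≤ 0 → fil i = perp B (U (-i).toNat) := fun i hi => if_neg (by omega)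
  have hJJp : J ≤ perp B J := fun x hx => mem_perp.2 fun y hy => hJi y hy x hx
  obtain ⟨m, hm⟩ := hn
  refine ⟨fil, ?_, ?_, ⟨m, ?_, ?_⟩, ?_⟩
  · intro i j hij
    rcases le_or_gt 1 i with hi | hi
    · rw [fpos i hi, fpos j (by omega)]
      exact hUanti' (by omega)
    · rcases le_or_gt 1 j with hj | hj
      · rw [fneg i (by omega), fpos j hj]
        have h1 : U (j - 1).toNat ≤ J := by rw [← hU0]; exact hUanti' (Nat.zero_le _)
        have h2 : perp B J ≤ perp B (U (-i).toNat) := by
          rw [← hU0]; exact hperp_anti (hUanti' (Nat.zero_le _))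
        exact h1.trans (hJJp.trans h2)
      · rw [fneg i (by omega), fneg j (by omega)]
        exact hperp_anti (hUanti' (by omega))
  · intro i x
    rcases le_or_gt 1 i with hi | hi
    · rw [fpos i hi, fneg (1 - i) (by omega), show (-(1 - i)).toNat = (i - 1).toNat by congr 1; ring]
      constructor
      · intro hx y hy
        exact mem_perp.1 hy x hx
      · intro h
        rw [← perp_perp hs hnd (U (i - 1).toNat), mem_perp]
        intro y hy
        rw [hs]
        exact h y hy
    · rw [fneg i (by omega), fpos (1 - i) (by omega), show (1 - i - 1).toNat = (-i).toNat by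
        congr 1; ring, mem_perp]
      exact forall_congr' fun y => imp_congr_right fun _ => by rw [hs]
  · rw [fneg _ (by omega), show (-(-(m : ℤ))).toNat = m by omega]
    rw [eq_top_iff]
    intro x _
    rw [mem_perp]
    rintro _ ⟨y, _, rfl⟩
    rw [hm, LinearMap.zero_apply, map_zero, LinearMap.zero_apply]
  · rw [fpos _ (by omega), show ((m : ℤ) + 1 - 1).toNat = m by omega, eq_bot_iff]
    rintro _ ⟨y, _, rfl⟩
    rw [hm]
    exact Submodule.zero_mem _
  · intro i x hx
    rcases le_or_gt 1 i with hi | hi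
    · rw [fpos i hi] at hx
      rw [fpos (i + 1) (by omega), show (i + 1 - 1).toNat = (i - 1).toNat + 1 by omega]
      exact hUY _ x hx
    · rcases le_or_gt 0 i with h0 | h0
      · have hi0 : i = 0 := by omega
        subst hi0
        rw [fneg 0 le_rfl] at hx
        rw [fpos (0 + 1) (by omega)]
        have h1 : (-(0 : ℤ)).toNat = 0 := by simp
        have h2 : ((0 : ℤ) + 1 - 1).toNat = 0 := by simp
        rw [h1, hU0] at hx
        rw [h2, hU0]
        exact hJY x hx
      · rw [fneg i (by omega)] at hx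
        rw [fneg (i + 1) (by omega)]
        have h1 : (-i).toNat = (-(i + 1)).toNat + 1 := by omega
        rw [h1] at hx
        exact hUp _ x hx

end Flag

universe u

variable {k F P : Type*} [Field k] [Field F] [Algebra k F] {C : Curve k F P}
variable {E : Type u} [AddCommGroup E] [Module F E] [Module k E] [IsScalarTower k F E]
  [FiniteDimensional F E] {N : Bun C E} {B : LinearMap.BilinForm F E}

omit [Module k E] [IsScalarTower k F E] in
/-- existence of connections -/
theorem exists_conn (δ : Derivation ℤ F F) : ∃ D : E → E, IsConn δ D := by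
  let b := finBasis F E
  refine ⟨fun x => ∑ i, δ (b.repr x i) • b i, fun x y => ?_, fun f x => ?_⟩
  · show ∑ i, δ (b.repr (x + y) i) • b i = ∑ i, δ (b.repr x i) • b i + ∑ i, δ (b.repr y i) • b i
    rw [← Finset.sum_add_distrib]
    refine Finset.sum_congr rfl fun i _ => ?_
    rw [map_add, Finsupp.add_apply, map_add, add_smul]
  · show ∑ i, δ (b.repr (f • x) i) • b i = f • ∑ i, δ (b.repr x i) • b i + δ f • x
    have h1 : ∀ i, δ (b.repr (f • x) i) • b i =
        f • (δ (b.repr x i) • b i) + δ f • (b.repr x i • b i) := by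
      intro i
      rw [map_smul, Finsupp.smul_apply, smul_eq_mul, Derivation.leibniz, add_smul, smul_eq_mul,
        smul_eq_mul, smul_smul, smul_smul, mul_comm (b.repr x i)]
    rw [Finset.sum_congr rfl (fun i _ => h1 i), Finset.sum_add_distrib, ← Finset.smul_sum,
      ← Finset.smul_sum, b.sum_repr]

/-- **(N4)** -/
theorem n4 {κ : P → ℤ} {I : Type*} (V : Vers N B κ I) (h2 : (2 : F) ≠ 0)
    (hs : ∀ x y, B x y = B y x) (hnd : ∀ x, (∀ y, B x y = 0) → x = 0) {Y : E →ₗ[F] E}
    (hY : Y ∈ adj B (-1)) (hYp : ∀ p, Y ∈ ((N.hom N).ch p).L (-κ p)) (hn : IsNilpotent Y) :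
    Y = 0 := by
  obtain ⟨fil, hfl⟩ := exists_flag hs hnd hY hn
  refine V.vers Y hY hYp fun i => ?_
  obtain ⟨D1, hD1⟩ := exists_conn (E := E) (V.δ i)
  obtain ⟨D0, h0, hm, hf⟩ := exists_metric_fil hs hnd h2 hfl.anti hfl.bdd hfl.dual hD1
  refine ⟨D0, h0, hm, fun p => ?_⟩
  exact trace_local hfl.anti hfl.bdd (V.conn i p) h0 hf
    (fun T hT => V.comm i p 0 (Or.inl rfl) T hT) hfl.deg (hYp p)

end Vale.Agent.P182.H563
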