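import Vale.Agent.P182.H668.Iface
import Vale.Agent.P182.H388.EB
import Vale.Agent.P182.H899.Process
import Vale.Agent.P182.H563.N4

/-!
# The process, and the reduction to a bundle with one homomorphism

From the largest subobject `A` of `N` with `Hom (A, M) = 0` and the description of
`Hom (A, S^*)` we obtain a quotient `S / X` with `Hom (A, S / X) = k x`,
`RHom (N / A, S / X) = 0`, `RHom (A^⊥, S / X) = 0`.
-/

set_option linter.unusedSectionVars false

namespace Vale.Agent.P182.H563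

open LinearMap Submodule Module Vale.Agent.P182 Vale.Agent.P182.H430 Vale.Agent.P182.H578
  Vale.Agent.P182.H668
open Vale.Agent.P182.H388 (Mor mor_iff mor_subtype mor_mkQ chi_hom_left trs trs_spec)

variable {k F P : Type*} [Field k] [Field F] [Algebra k F] {C : Curve k F P} {κ : P → ℤ}
variable {E : Type*} [AddCommGroup E] [Module F E] [Module k E] [IsScalarTower k F E]
  [FiniteDimensional F E]
variable {E₂ : Type*} [AddCommGroup E₂] [Module F E₂] [Module k E₂] [IsScalarTower k F E₂]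
  [FiniteDimensional F E₂]
variable {E₃ : Type*} [AddCommGroup E₃] [Module F E₃] [Module k E₃] [IsScalarTower k F E₃]
  [FiniteDimensional F E₃]
variable {T : Type*} [AddCommGroup T] [Module F T] [Module k T] [IsScalarTower k F T]
  [FiniteDimensional F T]

/-- `Hom (A, B)` -/
theorem noHom_iff {A : Bun C E} {B : Bun C E₂} : NoHom A B ↔ h0 (A.hom B).lat = 0 := by
  rw [H388.h0_eq_zero_iff]
  exact ⟨fun h f hf => h f (mor_iff.1 hf), fun h f hf => h f (mor_iff.2 hf)⟩

/-- `D` is the dual of `S` with values in the dualizing sheaf -/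
structure KDual (κ : P → ℤ) (S : Bun C E₂) (D : Bun C T) (β : T →ₗ[F] E₂ →ₗ[F] F) : Prop where
  bij : Function.Bijective β
  mem : ∀ p a t, t ∈ (D.ch p).L a ↔
    ∀ b s, s ∈ (S.ch p).L b → β t s ∈ (C.pl p).M (C.per p) (a + b - κ p)

theorem kDual_dV (hκ : Dualizing C κ) (S : Bun C E₂) :
    KDual (T := Dual F E₂) κ S (dV hκ S) LinearMap.id :=
  ⟨Function.bijective_id, fun p a t => mem_dV hκ S p a t⟩

/-- SERRE DUALITY with the dual bundle -/
theorem serreV (hκ : Dualizing C κ) {A : Bun C E} {A' : Bun C E₃} {U : E →ₗ[F] E₃ →ₗ[F] F}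
    (h : DPair A A' U) {B : Bun C E₂} {D : Bun C T} {β : T →ₗ[F] E₂ →ₗ[F] F}
    (hD : KDual κ B D β) :
    h0 (A'.hom D).lat = h1 (A.hom B).lat ∧ h1 (A'.hom D).lat = h0 (A.hom B).lat := by
  have e1 := (DPair.hom A B).serre hκ
  let e : T ≃ₗ[F] Dual F E₂ := LinearEquiv.ofBijective β hD.bij
  have he : ∀ t s, e t s = β t s := fun _ _ => rfl
  have hB := DPair.dual B
  let g : (E₂ →ₗ[F] E) ≃ₗ[F] (E₃ →ₗ[F] T) :=
    (trs hB h).trans (LinearEquiv.arrowCongr (LinearEquiv.refl F E₃) e.symm)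
  have hg : ∀ f y b, β (g f y) b = U (f b) y := by
    intro f y b
    rw [← trs_spec hB h f b y]
    show e (e.symm (trs hB h f y)) b = _
    rw [LinearEquiv.apply_symm_apply]
    rfl
  have e2 := coh_equiv (Λ₁ := (B.hom A).tw κ) (Λ₂ := (A'.hom D).lat)
    (g.restrictScalars k) (fun p f => ?_)
  · exact ⟨e2.2.1.symm.trans e1.2.1, e2.2.2.1.symm.trans e1.2.2.1⟩
  · show f ∈ ((B.hom A).ch p).L (-κ p) ↔ g f ∈ (A'.hom D).lat p
    rw [Bun.mem_hom_lat]
    constructor
    · intro hf b y hy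
      rw [hD.mem]
      intro c x hx
      rw [hg]
      have h1 := (h.mem p b y).1 hy _ _ (hf c x hx)
      rwa [show b + c - κ p = c + -κ p + b by ring]
    · intro hf b x hx
      rw [h.symm.mem]
      intro a y hy
      show U (f x) y ∈ _
      rw [← hg]
      have h1 := (hD.mem p a _).1 (hf a y hy) b x hx
      rwa [show a + (b + -κ p) = a + b - κ p by ring]

/-- the skew forms on `S` with values in the dualizing sheaf -/
def Lam (S : Bun C E₂) (D : Bun C T) (β : T →ₗ[F] E₂ →ₗ[F] F) : Submodule k (E₂ →ₗ[F] T) where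
  carrier := {c | Mor S D c ∧ ∀ s t, β (c s) t = - β (c t) s}
  add_mem' := by
    rintro c d ⟨h1, h2⟩ ⟨h3, h4⟩
    refine ⟨fun p b s hs => Submodule.add_mem _ (h1 p b s hs) (h3 p b s hs), fun s t => ?_⟩
    rw [LinearMap.add_apply, LinearMap.add_apply, map_add, map_add, LinearMap.add_apply,
      LinearMap.add_apply, h2, h4, neg_add]
  zero_mem' := ⟨fun p b s _ => Submodule.zero_mem _, fun s t => by simp⟩
  smul_mem' := by
    rintro a c ⟨h1, h2⟩
    refine ⟨fun p b s hs => Submodule.smul_mem _ a (h1 p b s hs), fun s t => ?_⟩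
    rw [LinearMap.smul_apply, LinearMap.smul_apply, ← algebraMap_smul F a, ← algebraMap_smul F a,
      map_smul, map_smul, LinearMap.smul_apply, LinearMap.smul_apply, h2, smul_neg]

theorem mem_Lam {S : Bun C E₂} {D : Bun C T} {β : T →ₗ[F] E₂ →ₗ[F] F} {c : E₂ →ₗ[F] T} :
    c ∈ Lam S D β ↔ Mor S D c ∧ ∀ s t, β (c s) t = - β (c t) s := Iff.rfl

theorem Lam_fin (S : Bun C E₂) (D : Bun C T) (β : T →ₗ[F] E₂ →ₗ[F] F) :
    FiniteDimensional k (Lam S D β) := by
  have := (S.hom D).finCoh.fin0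
  exact Submodule.finiteDimensional_of_le (S₂ := HZ (S.hom D).lat) fun c hc => mor_iff.1 hc.1

/-- a morphism which kills `X` descends -/
theorem mor_liftQ {S : Bun C E₂} {D : Bun C E₃} {X : Submodule F E₂} {c : E₂ →ₗ[F] E₃}
    (hc : Mor S D c) (h : X ≤ LinearMap.ker c) : Mor (S.quo X) D (X.liftQ c h) := by
  rintro p b _ ⟨s, hs, rfl⟩
  exact hc p b s hs

/-- if all morphisms kill `X` then they factor through the quotient -/
theorem h0_le_quo {S : Bun C E₂} {M : Bun C E₃} {X : Submodule F E₂}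
    (hX : ∀ f, Mor S M f → ∀ s ∈ X, f s = 0) :
    h0 (S.hom M).lat ≤ h0 ((S.quo X).hom M).lat := by
  have hk : ∀ f : HZ (S.hom M).lat, X ≤ LinearMap.ker (f : E₂ →ₗ[F] E₃) :=
    fun f s hs => hX _ (mor_iff.2 f.2) s hs
  have hm : ∀ f : HZ (S.hom M).lat, X.liftQ (f : E₂ →ₗ[F] E₃) (hk f) ∈
      HZ ((S.quo X).hom M).lat := fun f => mor_iff.1 (mor_liftQ (mor_iff.2 f.2) _)
  have := ((S.quo X).hom M).finCoh.fin0
  let g : HZ (S.hom M).lat →ₗ[k] HZ ((S.quo X).hom M).lat :=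
    { toFun := fun f => ⟨X.liftQ (f : E₂ →ₗ[F] E₃) (hk f), hm f⟩
      map_add' := fun f f' => Subtype.ext (by
        apply LinearMap.ext
        intro s
        obtain ⟨s, rfl⟩ := X.mkQ_surjective s
        rfl)
      map_smul' := fun a f => Subtype.ext (by
        apply LinearMap.ext
        intro s
        obtain ⟨s, rfl⟩ := X.mkQ_surjective s
        rfl) }
  refine LinearMap.finrank_le_finrank_of_injective (f := g) fun f f' h => ?_
  apply Subtype.ext
  apply LinearMap.ext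
  intro s
  exact LinearMap.congr_fun (congrArg Subtype.val h) (X.mkQ s)

/-- `Ext (S / X, M) = 0` -/
theorem ext_quo {S : Bun C E₂} {M : Bun C E₃} (hSM : h1 (S.hom M).lat = 0) {X : Submodule F E₂}
    (hX : NoHom (S.sub X) M) : h1 ((S.quo X).hom M).lat = 0 := by
  have e1 := chi_hom_left S X M
  have e2 := noHom_iff.1 hX
  have e3 : h0 (S.hom M).lat ≤ h0 ((S.quo X).hom M).lat := h0_le_quo fun f hf s hs => by
    have h1 := hX (f ∘ₗ X.subtype) (mor_iff.1 (hf.comp (mor_subtype S X)))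
    exact LinearMap.congr_fun h1 ⟨s, hs⟩
  have e4 := (mor_mkQ S X).h0_pre_le X.mkQ_surjective M
  unfold chi at e1
  omega

/-- pairs of a homomorphism on `A` and a homomorphism on `N / A` -/
def WW (N : Bun C E) (A : Submodule F E) (D : Bun C E₃) :
    Submodule k ((A × (E ⧸ A)) →ₗ[F] E₃) where
  carrier := {w | Mor (N.sub A) D (w ∘ₗ LinearMap.inl F A (E ⧸ A)) ∧
    Mor (N.quo A) D (w ∘ₗ LinearMap.inr F A (E ⧸ A))}
  add_mem' := by
    rintro a b ⟨h1, h2⟩ ⟨h3, h4⟩
    exact ⟨fun p c y hy => Submodule.add_mem _ (h1 p c y hy) (h3 p c y hy),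
      fun p c y hy => Submodule.add_mem _ (h2 p c y hy) (h4 p c y hy)⟩
  zero_mem' := ⟨fun p c y _ => Submodule.zero_mem _, fun p c y _ => Submodule.zero_mem _⟩
  smul_mem' := by
    rintro r a ⟨h1, h2⟩
    exact ⟨fun p c y hy => Submodule.smul_mem _ r (h1 p c y hy),
      fun p c y hy => Submodule.smul_mem _ r (h2 p c y hy)⟩

section process

variable {N : Bun C E} {B : LinearMap.BilinForm F E} {S : Bun C E₂} {M : Bun C E₃}
  {D : Bun C T} {β : T →ₗ[F] E₂ →ₗ[F] F} {A : Submodule F E} {x : E →ₗ[F] E₂}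

/-- **THE PROCESS** for bundles -/
theorem exists_quo [IsAlgClosed k] (hx : Mor N S x)
    (hA : NoHom (N.sub A) M) (hSM : h1 (S.hom M).lat = 0)
    (hb : ∀ X : Submodule F E₂, h1 ((S.quo X).hom M).lat = 0 →
      ∀ w, Mor N (S.quo X) w → ∀ u ∈ perp B A, w u = 0)
    (hφA : ∀ ψ, Mor N M ψ → (∀ u ∈ perp B A, ψ u = 0) → ψ = 0)
    (hd : ∀ z, Mor (N.sub A) D z → ∃ c ∈ Lam S D β, ∀ a : A, z a = c (x a))
    (hz : ∀ z, Mor N D z → ∃ c ∈ Lam S D β, ∀ e, z e = c (x e))
    (hXi : ∀ d ∈ Lam S D β, (∀ a ∈ A, ∀ a' ∈ A, β (d (x a)) (x a') = 0) → d = 0)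
    (hne : Lam S D β ≠ ⊥) :
    ∃ X : Submodule F E₂, NoHom (S.sub X) M ∧ (∃ c ∈ Lam S D β, c ≠ 0 ∧ ∀ s ∈ X, c s = 0) ∧
      (∀ w, Mor (N.sub A) (S.quo X) w → ∃ a : k, w = a • (X.mkQ ∘ₗ x ∘ₗ A.subtype)) ∧
      NoHom (N.quo A) (S.quo X) ∧
      ∀ c ∈ Lam S D β, (∀ a ∈ A, ∀ s ∈ X, β (c (x a)) s = 0) → ∀ s ∈ X, c s = 0 := by
  have := Lam_fin S D β
  let xh : (A × (E ⧸ A)) →ₗ[F] E₂ := (x ∘ₗ A.subtype) ∘ₗ LinearMap.fst F A (E ⧸ A)
  have hxh : ∀ n, xh n = x n.1 := fun _ => rfl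
  -- homomorphisms on `N / A` into the dual vanish
  have hFD : ∀ z, Mor (N.quo A) D z → z = 0 := by
    intro z hz'
    obtain ⟨c, hc, hc'⟩ := hz (z ∘ₗ A.mkQ) (hz'.comp (mor_mkQ N A))
    have hc0 : c = 0 := by
      apply hXi c hc
      intro a ha a' _
      rw [← hc' a]
      have : A.mkQ a = 0 := by simpa using ha
      rw [LinearMap.comp_apply, this, map_zero, map_zero, LinearMap.zero_apply]
    apply LinearMap.ext
    intro e
    obtain ⟨e, rfl⟩ := A.mkQ_surjective e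
    have := hc' e
    rw [hc0, LinearMap.zero_apply] at this
    exact this
  obtain ⟨X, -, hGX, hCX, hWX, hIX⟩ := H899.process_aux (k := k) β (Lam S D β)
    (fun c hc => hc.2) xh
    (by
      intro d hd' h
      refine hXi d hd' fun a ha a' ha' => ?_
      exact h (⟨a, ha⟩, 0) (⟨a', ha'⟩, 0))
    (fun X => WW N A (S.quo X))
    (by
      intro X
      refine ⟨?_, ?_⟩
      · exact ((mor_mkQ S X).comp hx).comp (mor_subtype N A)
      · intro p b y _
        show X.mkQ (x ((0 : A) : E)) ∈ _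
        rw [Submodule.coe_zero, map_zero, map_zero]
        exact Submodule.zero_mem _)
    (fun X => NoHom (S.sub X) M)
    (by
      intro X _ c hc hcX w hw
      let cb : (E₂ ⧸ X) →ₗ[F] T := X.liftQ c (fun s hs => hcX s hs)
      have hcb : Mor (S.quo X) D cb := mor_liftQ hc.1 _
      obtain ⟨c', hc', h'⟩ := hd _ (hcb.comp hw.1)
      have h0 := hFD _ (hcb.comp hw.2)
      refine ⟨c', hc', ?_⟩
      rintro ⟨a, e⟩ s hs
      have h1 : cb (w (a, e)) = c s := by rw [← hs]; rfl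
      have h2 : w (a, e) = w (a, 0) + w (0, e) := by rw [← map_add]; simp
      have h3 : cb (w (a, 0)) = c' (x a) := h' a
      have h4 : cb (w (0, e)) = 0 := LinearMap.congr_fun h0 e
      rw [← h1, h2, map_add, h3, h4, add_zero]
      rfl)
    (by
      intro X hGX W' hW'
      set R : Submodule F (E₂ ⧸ X) := ⨆ w ∈ W', LinearMap.range w with hR
      intro f hf
      replace hf := mor_iff.2 hf
      have hXR : X ≤ R.comap X.mkQ := by
        intro s hs
        have h0 : X.mkQ s = 0 := (Submodule.Quotient.mk_eq_zero _).2 hs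
        apply Submodule.mem_comap.2
        rw [h0]; exact Submodule.zero_mem _
      -- `f` vanishes on `X`
      have hfX : f ∘ₗ Submodule.inclusion hXR = 0 := by
        apply hGX
        refine mor_iff.1 fun p b s hs => ?_
        exact hf p b ⟨s, hXR s.2⟩ hs
      -- an extension
      obtain ⟨g, hg⟩ := LinearMap.exists_extend f
      have hgf : ∀ s (hs : s ∈ R.comap X.mkQ), g s = f ⟨s, hs⟩ := fun s hs => by
        rw [← hg]; rfl
      have hgX : X ≤ LinearMap.ker g := by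
        intro s hs
        rw [LinearMap.mem_ker, hgf s (hXR hs)]
        exact LinearMap.congr_fun hfX ⟨s, hs⟩
      let gb : (E₂ ⧸ X) →ₗ[F] E₃ := X.liftQ g hgX
      have hgb : ∀ p b y, y ∈ ((S.quo X).ch p).L b → y ∈ R → gb y ∈ (M.ch p).L b := by
        rintro p b _ ⟨s, hs, rfl⟩ hy
        have h1 : gb (X.mkQ s) = f ⟨s, hy⟩ := hgf s hy
        show gb (X.mkQ s) ∈ _
        rw [h1]
        exact hf p b ⟨s, hy⟩ hs
      have hwR : ∀ w ∈ W', ∀ n, w n ∈ R := fun w hw n =>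
        Submodule.mem_iSup_of_mem w (Submodule.mem_iSup_of_mem hw ⟨n, rfl⟩)
      have hgw : ∀ w ∈ W', gb ∘ₗ w = 0 := by
        intro w hw
        have hwW := hW' hw
        have h1 : gb ∘ₗ (w ∘ₗ LinearMap.inl F A (E ⧸ A)) = 0 := by
          apply hA
          refine mor_iff.1 fun p b y hy => ?_
          exact hgb p b _ (hwW.1 p b y hy) (hwR w hw _)
        have h2 : (gb ∘ₗ (w ∘ₗ LinearMap.inr F A (E ⧸ A))) ∘ₗ A.mkQ = 0 := by
          apply hφA
          · intro p b y hy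
            exact hgb p b _ (hwW.2 p b _ ((mor_mkQ N A) p b y hy)) (hwR w hw _)
          · intro u hu
            have h3 := hb X (ext_quo hSM hGX) _ (hwW.2.comp (mor_mkQ N A)) u hu
            show gb ((w ∘ₗ LinearMap.inr F A (E ⧸ A)) (A.mkQ u)) = 0
            have h4 : (w ∘ₗ LinearMap.inr F A (E ⧸ A)) (A.mkQ u) = 0 := h3
            rw [h4, map_zero]
        apply LinearMap.ext
        rintro ⟨a, e⟩
        obtain ⟨e, rfl⟩ := A.mkQ_surjective e
        have h3 : w (a, A.mkQ e) = w (a, 0) + w (0, A.mkQ e) := by rw [← map_add]; simp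
        rw [LinearMap.comp_apply, h3, map_add]
        have h4 : gb (w (a, 0)) = 0 := LinearMap.congr_fun h1 a
        have h5 : gb (w (0, A.mkQ e)) = 0 := LinearMap.congr_fun h2 e
        rw [h4, h5, add_zero]; rfl
      have hgR : R ≤ LinearMap.ker gb := by
        refine iSup₂_le fun w hw => ?_
        rintro _ ⟨n, rfl⟩
        exact LinearMap.congr_fun (hgw w hw) n
      apply LinearMap.ext
      rintro ⟨s, hs⟩
      rw [← hgf s hs]
      exact hgR hs)
    _ ⊥ rfl
    (by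
      intro f _
      apply LinearMap.ext
      rintro ⟨s, hs⟩
      have : (⟨s, hs⟩ : (⊥ : Submodule F E₂)) = 0 := Subtype.ext ((Submodule.mem_bot F).1 hs)
      rw [this, map_zero, map_zero])
    (by
      obtain ⟨c, hc, hc0⟩ := Submodule.exists_mem_ne_zero_of_ne_bot hne
      refine ⟨c, hc, hc0, fun s hs => ?_⟩
      rw [(Submodule.mem_bot F).1 hs, map_zero])
    (by
      intro c _ _ s hs
      rw [(Submodule.mem_bot F).1 hs, map_zero])
  refine ⟨X, hGX, hCX, ?_, ?_, ?_⟩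
  · intro w hw
    obtain ⟨a, ha⟩ := hWX (w ∘ₗ LinearMap.fst F A (E ⧸ A)) ⟨fun p b y hy => hw p b y hy,
      fun p b y _ => by
        show w 0 ∈ _
        rw [map_zero]; exact Submodule.zero_mem _⟩
    refine ⟨a, LinearMap.ext fun y => ?_⟩
    exact LinearMap.congr_fun ha (y, 0)
  · intro f hf
    replace hf := mor_iff.2 hf
    obtain ⟨a, ha⟩ := hWX (f ∘ₗ LinearMap.snd F A (E ⧸ A)) ⟨fun p b y _ => by
        show f 0 ∈ _
        rw [map_zero]; exact Submodule.zero_mem _, fun p b y hy => hf p b y hy⟩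
    apply LinearMap.ext
    intro e
    have h1 := LinearMap.congr_fun ha (0, e)
    have h2 : (a • (X.mkQ ∘ₗ xh)) ((0 : A), e) = 0 := by
      show a • X.mkQ (x ((0 : A) : E)) = 0
      rw [Submodule.coe_zero, map_zero, map_zero, smul_zero]
    rw [h2] at h1
    exact h1
  · intro c hc h
    exact hIX c hc fun n s hs => h n.1 n.1.2 s hs

end process

section descend

variable {S : Bun C E₂} {D : Bun C T} {β : T →ₗ[F] E₂ →ₗ[F] F}
variable {T' : Type*} [AddCommGroup T'] [Module F T'] [Module k T'] [IsScalarTower k F T']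
  [FiniteDimensional F T'] {X : Submodule F E₂}
  {D' : Bun C T'} {β' : T' →ₗ[F] (E₂ ⧸ X) →ₗ[F] F}

/-- the transpose of the projection -/
theorem exists_tr (hD : KDual κ S D β) (hD' : KDual κ (S.quo X) D' β') :
    ∃ j : T' →ₗ[F] T, Mor D' D j ∧ ∀ t s, β (j t) s = β' t (X.mkQ s) := by
  let e : T ≃ₗ[F] Dual F E₂ := LinearEquiv.ofBijective β hD.bij
  let j : T' →ₗ[F] T := e.symm.toLinearMap ∘ₗ (X.mkQ.dualMap ∘ₗ β')
  have hj : ∀ t s, β (j t) s = β' t (X.mkQ s) := by
    intro t s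
    show e (e.symm (X.mkQ.dualMap (β' t))) s = _
    rw [LinearEquiv.apply_symm_apply]
    rfl
  refine ⟨j, fun p a t ht => ?_, hj⟩
  rw [hD.mem]
  intro b s hs
  rw [hj]
  exact (hD'.mem p a t).1 ht b _ ⟨s, hs, rfl⟩

/-- descent of forms -/
theorem exists_desc (hD : KDual κ S D β) (hD' : KDual κ (S.quo X) D' β') {c : E₂ →ₗ[F] T}
    (hc : c ∈ Lam S D β) (hcX : ∀ s ∈ X, c s = 0) :
    ∃ c' ∈ Lam (S.quo X) D' β', ∀ s t, β' (c' (X.mkQ s)) (X.mkQ t) = β (c s) t := by
  let e' : T' ≃ₗ[F] Dual F (E₂ ⧸ X) := LinearEquiv.ofBijective β' hD'.bij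
  have h1 : ∀ s, β (c s) ∈ X.dualAnnihilator := by
    intro s
    rw [Submodule.mem_dualAnnihilator]
    intro t ht
    rw [hc.2, hcX t ht, map_zero, LinearMap.zero_apply, neg_zero]
  let b1 : E₂ →ₗ[F] X.dualAnnihilator := (β ∘ₗ c).codRestrict X.dualAnnihilator h1
  let b2 : E₂ →ₗ[F] Dual F (E₂ ⧸ X) :=
    (Submodule.dualQuotEquivDualAnnihilator X).symm.toLinearMap ∘ₗ b1
  have hb2 : ∀ s t, b2 s (X.mkQ t) = β (c s) t := by
    intro s t
    have h3 : Submodule.dualQuotEquivDualAnnihilator X (b2 s) = b1 s := by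
      show Submodule.dualQuotEquivDualAnnihilator X
        ((Submodule.dualQuotEquivDualAnnihilator X).symm (b1 s)) = b1 s
      rw [LinearEquiv.apply_symm_apply]
    have h4 := congrArg (fun z : X.dualAnnihilator => (z : Dual F E₂) t) h3
    exact h4
  have h5 : X ≤ LinearMap.ker b2 := by
    intro s hs
    rw [LinearMap.mem_ker]
    apply LinearMap.ext
    intro t
    obtain ⟨t, rfl⟩ := X.mkQ_surjective t
    rw [hb2, hcX s hs, map_zero, LinearMap.zero_apply, LinearMap.zero_apply]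
  let c' : (E₂ ⧸ X) →ₗ[F] T' := e'.symm.toLinearMap ∘ₗ X.liftQ b2 h5
  have hc' : ∀ s t, β' (c' (X.mkQ s)) (X.mkQ t) = β (c s) t := by
    intro s t
    show e' (e'.symm (b2 s)) (X.mkQ t) = _
    rw [LinearEquiv.apply_symm_apply, hb2]
  refine ⟨c', ⟨?_, ?_⟩, hc'⟩
  · rintro p a _ ⟨s, hs, rfl⟩
    rw [hD'.mem]
    rintro b _ ⟨t, ht, rfl⟩
    have h6 := (hD.mem p a _).1 (hc.1 p a s hs) b t ht
    show β' (c' (X.mkQ s)) (X.mkQ t) ∈ _
    rw [hc']
    exact h6
  · intro s t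
    obtain ⟨s, rfl⟩ := X.mkQ_surjective s
    obtain ⟨t, rfl⟩ := X.mkQ_surjective t
    rw [hc', hc', hc.2]

/-- lift of forms -/
theorem exists_lift (hD : KDual κ S D β) (hD' : KDual κ (S.quo X) D' β')
    {c' : (E₂ ⧸ X) →ₗ[F] T'} (hc' : c' ∈ Lam (S.quo X) D' β') :
    ∃ c ∈ Lam S D β, ∀ s t, β (c s) t = β' (c' (X.mkQ s)) (X.mkQ t) := by
  obtain ⟨j, hj, hj'⟩ := exists_tr hD hD'
  refine ⟨j ∘ₗ c' ∘ₗ X.mkQ, ⟨(hj.comp hc'.1).comp (mor_mkQ S X), fun s t => ?_⟩, fun s t => ?_⟩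
  · show β (j (c' (X.mkQ s))) t = -β (j (c' (X.mkQ t))) s
    rw [hj', hj', hc'.2]
  · exact hj' _ _

end descend

section main

/-- what is needed about `S` and `x` -/
structure HS (κ : P → ℤ) (N : Bun C E) (A : Submodule F E) (M : Bun C E₃)
    (S : Bun C E₂) (D : Bun C T) (β : T →ₗ[F] E₂ →ₗ[F] F) (x : E →ₗ[F] E₂) : Prop where
  dual : KDual κ S D β
  mx : Mor N S x
  ext : h1 (S.hom M).lat = 0
  hz : ∀ z, Mor N D z → ∃ c ∈ Lam S D β, ∀ e, z e = c (x e)
  inj : ∀ d ∈ Lam S D β, (∀ a ∈ A, ∀ a' ∈ A, β (d (x a)) (x a') = 0) → d = 0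
  ne : Lam S D β ≠ ⊥

variable {N : Bun C E} {B : LinearMap.BilinForm F E} {S : Bun C E₂} {M : Bun C E₃}
  {D : Bun C T} {β : T →ₗ[F] E₂ →ₗ[F] F} {A : Submodule F E} {x : E →ₗ[F] E₂}

/-- homomorphisms on `N / A` into the dual vanish -/
theorem HS.noHomFD (h : HS κ N A M S D β x) : NoHom (N.quo A) D := by
  intro z hz'
  replace hz' := mor_iff.2 hz'
  obtain ⟨c, hc, hc'⟩ := h.hz (z ∘ₗ A.mkQ) (hz'.comp (mor_mkQ N A))
  have hc0 : c = 0 := by
    apply h.inj c hc
    intro a ha a' _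
    rw [← hc' a]
    have : A.mkQ a = 0 := by simpa using ha
    rw [LinearMap.comp_apply, this, map_zero, map_zero, LinearMap.zero_apply]
  apply LinearMap.ext
  intro e
  obtain ⟨e, rfl⟩ := A.mkQ_surjective e
  have := hc' e
  rw [hc0, LinearMap.zero_apply] at this
  exact this

variable {T' : Type*} [AddCommGroup T'] [Module F T'] [Module k T'] [IsScalarTower k F T']
  [FiniteDimensional F T'] {X : Submodule F E₂}
  {D' : Bun C T'} {β' : T' →ₗ[F] (E₂ ⧸ X) →ₗ[F] F}

/-- the properties pass to the quotient by `X` -/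
theorem HS.quo (h : HS κ N A M S D β x) (hD' : KDual κ (S.quo X) D' β')
    (h1 : NoHom (S.sub X) M) (h2 : ∃ c ∈ Lam S D β, c ≠ 0 ∧ ∀ s ∈ X, c s = 0)
    (h3 : ∀ c ∈ Lam S D β, (∀ a ∈ A, ∀ s ∈ X, β (c (x a)) s = 0) → ∀ s ∈ X, c s = 0) :
    HS κ N A M (S.quo X) D' β' (X.mkQ ∘ₗ x) where
  dual := hD'
  mx := (mor_mkQ S X).comp h.mx
  ext := ext_quo h.ext h1
  hz z hz' := by
    obtain ⟨j, hj, hj'⟩ := exists_tr h.dual hD'
    obtain ⟨c, hc, hc'⟩ := h.hz (j ∘ₗ z) (hj.comp hz')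
    have hcX : ∀ s ∈ X, c s = 0 := by
      apply h3 c hc
      intro a _ s hs
      rw [← hc' a, LinearMap.comp_apply, hj']
      have : X.mkQ s = 0 := by simpa using hs
      rw [this, map_zero]
    obtain ⟨c', hc1, hc2⟩ := exists_desc h.dual hD' hc hcX
    refine ⟨c', hc1, fun e => ?_⟩
    apply hD'.bij.1
    apply LinearMap.ext
    intro t
    obtain ⟨t, rfl⟩ := X.mkQ_surjective t
    show β' (z e) (X.mkQ t) = β' (c' (X.mkQ (x e))) (X.mkQ t)
    rw [hc2, ← hc' e, LinearMap.comp_apply, hj']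
  inj d' hd' h4 := by
    obtain ⟨d, hd, hdd⟩ := exists_lift h.dual hD' hd'
    have hd0 : d = 0 := by
      apply h.inj d hd
      intro a ha a' ha'
      rw [hdd]
      exact h4 a ha a' ha'
    apply LinearMap.ext
    intro s
    obtain ⟨s, rfl⟩ := X.mkQ_surjective s
    apply hD'.bij.1
    apply LinearMap.ext
    intro t
    obtain ⟨t, rfl⟩ := X.mkQ_surjective t
    rw [← hdd, hd0, LinearMap.zero_apply, LinearMap.zero_apply, map_zero, map_zero,
      LinearMap.zero_apply, LinearMap.zero_apply]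
  ne := by
    obtain ⟨c, hc, hc0, hcX⟩ := h2
    obtain ⟨c', hc1, hc2⟩ := exists_desc h.dual hD' hc hcX
    intro h5
    apply hc0
    have h6 : c' = 0 := by
      rw [h5] at hc1
      exact (Submodule.mem_bot k).1 hc1
    apply LinearMap.ext
    intro s
    apply h.dual.bij.1
    apply LinearMap.ext
    intro t
    rw [← hc2, h6, LinearMap.zero_apply, LinearMap.zero_apply, map_zero, map_zero,
      LinearMap.zero_apply, LinearMap.zero_apply]

/-- **(5')** `RHom (N / A, S) = 0`, `RHom (A^⊥, S) = 0` and the span of `Hom (N, S)` -/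
theorem HS.rhom (h : HS κ N A M S D β x) (hκ : Dualizing C κ) (hN : DPair N N B)
    (hperp : ∀ u ∈ perp B A, x u = 0)
    (hone : ∀ w, Mor (N.sub A) S w → ∃ a : k, w = a • (x ∘ₗ A.subtype))
    (hno : NoHom (N.quo A) S) :
    (∀ w, Mor N S w → ∃ a : k, w = a • x) ∧ h1 ((N.quo A).hom S).lat = 0 ∧
      h1 ((N.sub (perp B A)).hom S).lat = 0 := by
  refine ⟨fun w hw => ?_, ?_, ?_⟩
  · obtain ⟨a, ha⟩ := hone _ (hw.comp (mor_subtype N A))
    refine ⟨a, ?_⟩
    have hm : Mor N S (w - a • x) := fun p b y hy =>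
      Submodule.sub_mem _ (hw p b y hy) (Submodule.smul_mem _ a (h.mx p b y hy))
    have hk : A ≤ LinearMap.ker (w - a • x) := by
      intro y hy
      have := LinearMap.congr_fun ha ⟨y, hy⟩
      rw [LinearMap.mem_ker, LinearMap.sub_apply, sub_eq_zero]
      exact this
    have h4 := hno _ (mor_iff.1 (mor_liftQ hm hk))
    rw [← sub_eq_zero]
    apply LinearMap.ext
    intro y
    exact LinearMap.congr_fun h4 (A.mkQ y)
  · have e1 := chi_hom_left N A S
    have e2 := noHom_iff.1 hno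
    -- restriction is surjective
    have e3 : h0 ((N.sub A).hom S).lat ≤ h0 (N.hom S).lat := by
      have := (N.hom S).finCoh.fin0
      refine LinearMap.finrank_le_finrank_of_surjective
        (f := hzMap _ ((mor_subtype N A).maps_pre S)) ?_
      rintro ⟨w, hw⟩
      obtain ⟨a, ha⟩ := hone w (mor_iff.2 hw)
      refine ⟨a • ⟨x, mor_iff.1 h.mx⟩, Subtype.ext ?_⟩
      show (a • x) ∘ₗ A.subtype = w
      rw [ha]
      rfl
    -- Serre duality
    have e4 := serreV hκ hN h.dual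
    have e5 := serreV hκ (hN.sub A) h.dual
    have e6 : h0 (N.hom D).lat ≤ h0 ((N.quo (perp B A)).hom D).lat := h0_le_quo fun f hf s hs => by
      obtain ⟨c, _, hc⟩ := h.hz f hf
      rw [hc, hperp s hs, map_zero]
    have e7 := e4.1
    have e8 := e5.1
    unfold chi at e1
    omega
  · have e5 := serreV hκ (hN.quo A).symm h.dual
    rw [← e5.1]
    exact noHom_iff.1 h.noHomFD

/-- `Hom (A^⊥, S^*) = 0` -/
theorem HS.noHomPD (h : HS κ N A M S D β x) (hκ : Dualizing C κ) (hN : DPair N N B)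
    (h1 : h1 ((N.quo A).hom S).lat = 0) : NoHom (N.sub (perp B A)) D := by
  rw [noHom_iff, (serreV hκ (hN.quo A) h.dual).1]
  exact h1

end main

end Vale.Agent.P182.H563
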