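import Vale.Agent.P182.H735.Reduce
import Vale.Agent.P182.H563.Red
import Vale.Agent.P182.H668.DualV

/-!
# From the reduced input to the input of the splitting

`H735.Inp` (the bundle `N` with values in `κ`, the bundles `M`, `S` with values in the structure
sheaf) is twisted by `θ`, `κ = 2 θ`.
-/

set_option linter.unusedSectionVars false

namespace Vale.Agent.P182.H563

open LinearMap Submodule Module Vale.Agent.P182 Vale.Agent.P182.H430 Vale.Agent.P182.H578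
  Vale.Agent.P182.H668
open Vale.Agent.P182.H388 (Mor mor_iff mor_subtype mor_mkQ)
open Vale.Agent.P182.H735 (Inp Lg Red OrthS KMor SkF NoExt)

variable {k F P : Type*} [Field k] [Field F] [Algebra k F] {C : Curve k F P} {κ : P → ℤ}
variable {E : Type*} [AddCommGroup E] [Module F E] [Module k E] [IsScalarTower k F E]
  [FiniteDimensional F E]
variable {W : Type*} [AddCommGroup W] [Module F W] [Module k W] [IsScalarTower k F W]
  [FiniteDimensional F W]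
variable {U : Type*} [AddCommGroup U] [Module F U] [Module k U] [IsScalarTower k F U]
  [FiniteDimensional F U]

/-- the input of the splitting -/
structure L3In (hκ : Dualizing C κ) (N : Bun C E) (B : LinearMap.BilinForm F E) (M : Bun C W)
    (q : LinearMap.BilinForm F W) (S : Bun C U) (x : E →ₗ[F] U) (φ : E →ₗ[F] W)
    (A : Submodule F E) : Prop where
  oN : Orth N B
  oM : OrthV κ M q
  /-- nilpotent symmetric / skew Higgs fields of `N` vanish -/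
  nil : ∀ ε : F, (ε = 1 ∨ ε = -1) → ∀ Θ ∈ adj B ε, Higgs κ N Θ → IsNilpotent Θ → Θ = 0
  mφ : φ ∈ HZ (N.hom M).lat
  hφ : ∀ ψ ∈ HZ (N.hom M).lat, ∃ c : k, ψ = c • φ
  /-- `φ φ^* ≠ 0` -/
  hpp : ∃ u v, (∀ w, φ w = 0 → B u w = 0) ∧ (∀ w, φ w = 0 → B v w = 0) ∧ B u v ≠ 0
  ext : h1 (S.hom M).lat = 0
  mx : x ∈ HZ (N.hom S).lat
  hx : ∀ ψ ∈ HZ (N.hom S).lat, ∃ c : k, ψ = c • x
  Ano : NoHom (N.sub A) M
  Amax : ∀ G, NoHom (N.sub G) M → G ≤ A
  hxA : ∀ ψ ∈ HZ ((N.sub A).hom S).lat, ∃ c : k, ψ = c • (x ∘ₗ A.subtype)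
  Fno : NoHom (N.quo A) S
  Fext : h1 ((N.quo A).hom S).lat = 0
  Pno : NoHom (N.sub (perp B A)) S
  Pext : h1 ((N.sub (perp B A)).hom S).lat = 0
  xperp : ∀ u ∈ perp B A, x u = 0
  FnoD : NoHom (E₂ := Dual F U) (N.quo A) (dV hκ S)
  PnoD : NoHom (E₂ := Dual F U) (N.sub (perp B A)) (dV hκ S)
  /-- `Hom (N, S^*)` consists of the `c x` with `c` skew -/
  hz : ∀ z ∈ HZ (N.hom (dV hκ S)).lat, ∃ c : U →ₗ[F] U →ₗ[F] F, (∀ s, c s s = 0) ∧
    (∀ p a s, s ∈ (S.ch p).L a → ∀ b t, t ∈ (S.ch p).L b →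
      c s t ∈ (C.pl p).M (C.per p) (a + b - κ p)) ∧ ∀ e t, z e t = c (x e) t
  /-- (Y) -/
  Y : ∀ z ∈ HZ (N.hom (dV hκ S)).lat, ∀ Z : E →ₗ[F] E, (∀ u v, B (Z u) v = z u (x v)) →
    IsNilpotent Z → z = 0
  c_ne : ∃ c : U →ₗ[F] U →ₗ[F] F, c ≠ 0 ∧ (∀ s, c s s = 0) ∧
    ∀ p a s, s ∈ (S.ch p).L a → ∀ b t, t ∈ (S.ch p).L b →
      c s t ∈ (C.pl p).M (C.per p) (a + b - κ p)
  c_inj : ∀ c : U →ₗ[F] U →ₗ[F] F, (∀ s, c s s = 0) →
    (∀ p a s, s ∈ (S.ch p).L a → ∀ b t, t ∈ (S.ch p).L b →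
      c s t ∈ (C.pl p).M (C.per p) (a + b - κ p)) →
    (∀ a ∈ A, ∀ a' ∈ A, c (x a) (x a') = 0) → c = 0

section twist

variable {θ : P → ℤ} (hf : {p | θ p ≠ 0}.Finite)

theorem mem_tw (A : Bun C E) (p : P) (a : ℤ) (x : E) :
    x ∈ ((A.twist θ hf).ch p).L a ↔ x ∈ (A.ch p).L (a - θ p) := Iff.rfl

theorem mor_tw {A : Bun C E} {B : Bun C U} {f : E →ₗ[F] U} :
    Mor (A.twist θ hf) (B.twist θ hf) f ↔ Mor A B f := by
  constructor
  · intro h p b x hx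
    have h1 := h p (b + θ p) x (by rw [mem_tw]; rwa [show b + θ p - θ p = b by ring])
    rw [mem_tw] at h1
    rwa [show b + θ p - θ p = b by ring] at h1
  · intro h p b x hx
    exact h p _ x hx

theorem lat_tw (A : Bun C E) (B : Bun C U) :
    ((A.twist θ hf).hom (B.twist θ hf)).lat = (A.hom B).lat := by
  funext p
  ext f
  rw [Bun.mem_hom_lat, Bun.mem_hom_lat]
  constructor
  · intro h b x hx
    have h1 := h (b + θ p) x (by rw [mem_tw]; rwa [show b + θ p - θ p = b by ring])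
    rw [mem_tw] at h1
    rwa [show b + θ p - θ p = b by ring] at h1
  · intro h b x hx
    exact h _ x hx

theorem sub_tw (A : Bun C E) (S : Submodule F E) :
    (A.twist θ hf).sub S = (A.sub S).twist θ hf := rfl

theorem quo_tw (A : Bun C E) (S : Submodule F E) :
    (A.twist θ hf).quo S = (A.quo S).twist θ hf := rfl

theorem noHom_tw {A : Bun C E} {B : Bun C U} :
    NoHom (A.twist θ hf) (B.twist θ hf) ↔ H735.NoHom A B := by
  constructor
  · intro h f hf'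
    exact h f (mor_iff.1 ((mor_tw hf).2 hf'))
  · intro h f hf'
    exact h f ((mor_tw hf).1 (mor_iff.2 hf'))

theorem higgs_tw {N : Bun C E} {Θ : E →ₗ[F] E} :
    Higgs κ (N.twist θ hf) Θ ↔ KMor κ N N Θ := by
  constructor
  · intro h p a x hx
    have h1 := mem_HZ.1 h p (a + θ p) x (by rw [mem_tw]; rwa [show a + θ p - θ p = a by ring])
    rw [mem_tw] at h1
    rwa [show a + θ p + -κ p - θ p = a - κ p by ring] at h1
  · intro h
    refine mem_HZ.2 fun p a x hx => ?_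
    have h1 := h p _ x hx
    show Θ x ∈ ((N.twist θ hf).ch p).L (a + -κ p)
    rw [mem_tw]
    rwa [show a + -κ p - θ p = a - θ p - κ p by ring]

end twist

section main

variable {θ : P → ℤ} {N : Bun C E} {b : LinearMap.BilinForm F E} {M : Bun C W}
  {q : LinearMap.BilinForm F W} {S : Bun C U} {x : E →ₗ[F] U} {φ : E →ₗ[F] W}
  {A : Submodule F E}

theorem orth_tw (h : OrthS κ N b) (hθ : ∀ p, κ p = 2 * θ p) (hf : {p | θ p ≠ 0}.Finite) :
    Orth (N.twist θ hf) b := by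
  refine ⟨fun p a x => ?_, h.symm, h.nd⟩
  rw [mem_tw, h.dual]
  constructor
  · intro h1 c y hy
    have := h1 _ y hy
    rwa [show a - θ p + (c + -θ p) + κ p = a + c by rw [hθ p]; ring] at this
  · intro h1 c y hy
    have := h1 (c + θ p) y (by rw [mem_tw]; rwa [show c + θ p - θ p = c by ring])
    rwa [show a - θ p + c + κ p = a + (c + θ p) by rw [hθ p]; ring]

theorem orthV_tw (h : OrthS (fun _ => 0) M q) (hθ : ∀ p, κ p = 2 * θ p)
    (hf : {p | θ p ≠ 0}.Finite) : OrthV κ (M.twist θ hf) q := by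
  refine ⟨fun p a x => ?_, h.symm, h.nd⟩
  rw [mem_tw, h.dual]
  constructor
  · intro h1 c y hy
    have := h1 _ y hy
    rwa [show a - θ p + (c + -θ p) + 0 = a + c - κ p by rw [hθ p]; ring] at this
  · intro h1 c y hy
    have := h1 (c + θ p) y (by rw [mem_tw]; rwa [show c + θ p - θ p = c by ring])
    rwa [show a - θ p + c + 0 = a + (c + θ p) - κ p by rw [hθ p]; ring]

/-- the two descriptions of the compatible skew forms -/
theorem skF_iff (h2 : (2 : F) ≠ 0) (hθ : ∀ p, κ p = 2 * θ p) (hf : {p | θ p ≠ 0}.Finite)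
    {c : LinearMap.BilinForm F U} : c ∈ SkF S ↔ (∀ s, c s s = 0) ∧
      ∀ p a s, s ∈ ((S.twist θ hf).ch p).L a → ∀ b t, t ∈ ((S.twist θ hf).ch p).L b →
        c s t ∈ (C.pl p).M (C.per p) (a + b - κ p) := by
  rw [H735.mem_skF]
  refine and_congr ⟨fun h s => ?_, fun h s t => ?_⟩ ⟨fun h p a s hs b t ht => ?_,
    fun h p a b s t hs ht => ?_⟩
  · have h1 : (2 : F) * c s s = 0 := by linear_combination h s s
    exact (mul_eq_zero.1 h1).resolve_left h2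
  · have h1 := h (s + t)
    rw [map_add, map_add, LinearMap.add_apply, LinearMap.add_apply, h, h] at h1
    linear_combination h1
  · have := h p _ _ s t hs ht
    rwa [show a + -θ p + (b + -θ p) = a + b - κ p by rw [hθ p]; ring] at this
  · have := h p (a + θ p) s (by rw [mem_tw]; rwa [show a + θ p - θ p = a by ring]) (b + θ p) t
      (by rw [mem_tw]; rwa [show b + θ p - θ p = b by ring])
    rwa [show a + θ p + (b + θ p) - κ p = a + b by rw [hθ p]; ring] at this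

/-- the properties of `S` and `x` -/
theorem hs_of_inp (hκ : Dualizing C κ) (h2 : (2 : F) ≠ 0) (I : Inp κ N b M q S x φ)
    (hA : Lg N M A) (hθ : ∀ p, κ p = 2 * θ p) (hf : {p | θ p ≠ 0}.Finite) :
    HS (T := Dual F U) κ (N.twist θ hf) A (M.twist θ hf) (S.twist θ hf)
      (dV hκ (S.twist θ hf)) LinearMap.id x where
  dual := kDual_dV hκ _
  mx := (mor_tw hf).2 I.mx
  ext := by
    rw [lat_tw]
    exact (H735.noExt_iff hκ).1 I.ext
  hz z hz := by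
    obtain ⟨c, hc, h⟩ := I.hz z (fun p a c e u he hu => by
      have h1 := hz p (a + θ p) e (by rw [mem_tw]; rwa [show a + θ p - θ p = a by ring])
      have h2 := (mem_dV hκ (S.twist θ hf) p _ (z e)).1 h1 (c + θ p) u
        (by rw [mem_tw]; rwa [show c + θ p - θ p = c by ring])
      rwa [show a + θ p + (c + θ p) - κ p = a + c by rw [hθ p]; ring] at h2)
    refine ⟨c, ?_, fun e => LinearMap.ext fun u => h e u⟩
    refine ⟨fun p a s hs => ?_, hc.1⟩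
    refine (mem_dV hκ (S.twist θ hf) p a (c s)).2 fun b' t ht => ?_
    exact ((skF_iff h2 hθ hf).1 hc).2 p a s hs b' t ht
  inj d hd h := by
    have hd' : (d : LinearMap.BilinForm F U) ∈ SkF S := by
      rw [H735.mem_skF]
      refine ⟨hd.2, fun p a b' s t hs ht => ?_⟩
      have h1 := hd.1 p (a + θ p) s (by rw [mem_tw]; rwa [show a + θ p - θ p = a by ring])
      have h3 := (mem_dV hκ (S.twist θ hf) p _ (d s)).1 h1 (b' + θ p) t
        (by rw [mem_tw]; rwa [show b' + θ p - θ p = b' by ring])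
      rwa [show a + θ p + (b' + θ p) - κ p = a + b' by rw [hθ p]; ring] at h3
    exact I.xi hA hd' h
  ne := by
    obtain ⟨c, hc, hc0⟩ := I.hC
    intro h0
    apply hc0
    have h1 : (c : U →ₗ[F] Dual F U) ∈ Lam (T := Dual F U) (S.twist θ hf)
        (dV hκ (S.twist θ hf)) LinearMap.id := by
      refine ⟨fun p a s hs => ?_, hc.1⟩
      refine (mem_dV hκ (S.twist θ hf) p a (c s)).2 fun b' t ht => ?_
      exact ((skF_iff h2 hθ hf).1 hc).2 p a s hs b' t ht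
    rw [h0] at h1
    exact (Submodule.mem_bot k).1 h1

theorem perp_eq (hs : ∀ x y, b x y = b y x) (A : Submodule F E) :
    H533.perp b A = perp b A := by
  ext y
  rw [mem_perp]
  constructor
  · intro h x hx
    rw [hs]
    exact h x hx
  · intro h x hx
    rw [hs]
    exact h x hx

/-- the homomorphisms into the dual -/
theorem key_hz (hκ : Dualizing C κ) (h2 : (2 : F) ≠ 0) (I : Inp κ N b M q S x φ)
    (hA : Lg N M A) (hθ : ∀ p, κ p = 2 * θ p) (hf : {p | θ p ≠ 0}.Finite)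
    (z : E →ₗ[F] Dual F U) (hz : z ∈ HZ ((N.twist θ hf).hom (dV hκ (S.twist θ hf))).lat) :
    ∃ c ∈ SkF S, ∀ e t, z e t = c (x e) t := by
  have hz' := mor_iff.2 hz
  obtain ⟨c, hc, h⟩ := (hs_of_inp hκ h2 I hA hθ hf).hz z hz'
  have h3 : ∀ s t, c s t = - c t s := hc.2
  have h5 : ∀ p a s, s ∈ ((S.twist θ hf).ch p).L a → ∀ b t, t ∈ ((S.twist θ hf).ch p).L b →
      c s t ∈ (C.pl p).M (C.per p) (a + b - κ p) := fun p a s hs b' t ht =>
    (mem_dV hκ (S.twist θ hf) p a (c s)).1 (hc.1 p a s hs) b' t ht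
  refine ⟨c, (skF_iff h2 hθ hf).2 ⟨fun s => ?_, h5⟩, fun e t => by rw [h e]⟩
  have h1 : (2 : F) * c s s = 0 := by linear_combination h3 s s
  exact (mul_eq_zero.1 h1).resolve_left h2

/-- `φ φ^* ≠ 0` -/
theorem hpp_of_inp (I : Inp κ N b M q S x φ) :
    ∃ u v, (∀ w, φ w = 0 → b u w = 0) ∧ (∀ w, φ w = 0 → b v w = 0) ∧ b u v ≠ 0 := by
  obtain ⟨φs, hφs⟩ := I.exists_φs
  have h1 := I.φφ φs hφs
  obtain ⟨w0, hw0⟩ : ∃ w0, φ (φs w0) ≠ 0 := by
    by_contra h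
    push Not at h
    exact h1 (LinearMap.ext h)
  obtain ⟨w1, hw1⟩ : ∃ w1, q (φ (φs w0)) w1 ≠ 0 := by
    by_contra h
    push Not at h
    exact hw0 (I.oM.nd _ h)
  refine ⟨φs w0, φs w1, fun w hw => ?_, fun w hw => ?_, ?_⟩
  · rw [hφs, hw, map_zero]
  · rw [hφs, hw, map_zero]
  · rw [I.oN.symm, hφs, I.oM.symm]
    exact hw1

/-- (Y) -/
theorem Y_of_inp (hκ : Dualizing C κ) (h2 : (2 : F) ≠ 0) (I : Inp κ N b M q S x φ)
    (hA : Lg N M A) (hθ : ∀ p, κ p = 2 * θ p) (hf : {p | θ p ≠ 0}.Finite)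
    (z : E →ₗ[F] Dual F U) (hz : z ∈ HZ ((N.twist θ hf).hom (dV hκ (S.twist θ hf))).lat)
    (Z : E →ₗ[F] E) (hZ : ∀ u v, b (Z u) v = z u (x v)) (hn : IsNilpotent Z) : z = 0 := by
  obtain ⟨c, hc, h⟩ := key_hz hκ h2 I hA hθ hf z hz
  have hZ' : ∀ u v, b (Z u) v = c (x u) (x v) := fun u v => by rw [hZ, h]
  have hZ0 : Z = 0 := by
    refine I.nil (-1) (Or.inr rfl) Z ?_ ?_ hn
    · intro u v
      rw [hZ', hc.1, ← hZ', I.oN.symm]
      ring
    · intro p a e he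
      rw [I.oN.dual]
      intro c' e' he'
      rw [hZ']
      have h3 := hc.2 p a c' _ _ (I.mx p a e he) (I.mx p c' e' he')
      rwa [show a - κ p + c' + κ p = a + c' by ring]
  have hc0 : c = 0 := by
    apply I.inj c hc
    intro e e'
    rw [← hZ', hZ0]
    simp
  apply LinearMap.ext
  intro e
  apply LinearMap.ext
  intro t
  rw [h, hc0]
  rfl

theorem xperp_of_inp (I : Inp κ N b M q S x φ) (hA : Lg N M A) :
    ∀ u ∈ perp b A, x u = 0 := by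
  rw [← perp_eq I.oN.symm A]
  exact H735.kill I.oN I.oM hA I.ext I.mx

theorem Pno_of_inp (I : Inp κ N b M q S x φ) (hA : Lg N M A) (hf : {p | θ p ≠ 0}.Finite) :
    NoHom ((N.twist θ hf).sub (perp b A)) (S.twist θ hf) := by
  rw [← perp_eq I.oN.symm A, sub_tw, noHom_tw]
  exact H735.kill_sub I.oN I.oM hA I.ext

theorem rhom_of_inp (hκ : Dualizing C κ) (h2 : (2 : F) ≠ 0) (I : Inp κ N b M q S x φ)
    (hA : Lg N M A) (R : Red N S x A) (hθ : ∀ p, κ p = 2 * θ p) (hf : {p | θ p ≠ 0}.Finite) :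
    (∀ w, Mor (N.twist θ hf) (S.twist θ hf) w → ∃ a : k, w = a • x) ∧
      h1 (((N.twist θ hf).quo A).hom (S.twist θ hf)).lat = 0 ∧
      h1 (((N.twist θ hf).sub (perp b A)).hom (S.twist θ hf)).lat = 0 := by
  refine (hs_of_inp hκ h2 I hA hθ hf).rhom hκ (orth_tw I.oN hθ hf).pair (xperp_of_inp I hA)
    (fun w hw => ?_) ?_
  · rw [sub_tw, mor_tw] at hw
    exact R.one w hw
  · rw [quo_tw, noHom_tw]
    exact R.no

theorem FnoD_of_inp (hκ : Dualizing C κ) (h2 : (2 : F) ≠ 0) (I : Inp κ N b M q S x φ)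
    (hA : Lg N M A) (hθ : ∀ p, κ p = 2 * θ p) (hf : {p | θ p ≠ 0}.Finite) :
    NoHom (E₂ := Dual F U) ((N.twist θ hf).quo A) (dV hκ (S.twist θ hf)) :=
  (hs_of_inp hκ h2 I hA hθ hf).noHomFD

theorem PnoD_of_inp (hκ : Dualizing C κ) (h2 : (2 : F) ≠ 0) (I : Inp κ N b M q S x φ)
    (hA : Lg N M A) (R : Red N S x A) (hθ : ∀ p, κ p = 2 * θ p) (hf : {p | θ p ≠ 0}.Finite) :
    NoHom (E₂ := Dual F U) ((N.twist θ hf).sub (perp b A)) (dV hκ (S.twist θ hf)) :=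
  (hs_of_inp hκ h2 I hA hθ hf).noHomPD hκ (orth_tw I.oN hθ hf).pair
    (rhom_of_inp hκ h2 I hA R hθ hf).2.1

/-- the elements of `Hom (N, S^*)` -/
theorem hz_of_inp (hκ : Dualizing C κ) (h2 : (2 : F) ≠ 0) (I : Inp κ N b M q S x φ)
    (hA : Lg N M A) (hθ : ∀ p, κ p = 2 * θ p) (hf : {p | θ p ≠ 0}.Finite)
    (z : E →ₗ[F] Dual F U) (hz : z ∈ HZ ((N.twist θ hf).hom (dV hκ (S.twist θ hf))).lat) :
    ∃ c : U →ₗ[F] U →ₗ[F] F, (∀ s, c s s = 0) ∧
      (∀ p a s, s ∈ ((S.twist θ hf).ch p).L a → ∀ b t, t ∈ ((S.twist θ hf).ch p).L b →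
        c s t ∈ (C.pl p).M (C.per p) (a + b - κ p)) ∧ ∀ e t, z e t = c (x e) t := by
  obtain ⟨c, hc, h⟩ := key_hz hκ h2 I hA hθ hf z hz
  obtain ⟨h3, h4⟩ := (skF_iff h2 hθ hf).1 hc
  exact ⟨c, h3, h4, h⟩

theorem c_ne_of_inp (h2 : (2 : F) ≠ 0) (I : Inp κ N b M q S x φ)
    (hθ : ∀ p, κ p = 2 * θ p) (hf : {p | θ p ≠ 0}.Finite) :
    ∃ c : U →ₗ[F] U →ₗ[F] F, c ≠ 0 ∧ (∀ s, c s s = 0) ∧
      ∀ p a s, s ∈ ((S.twist θ hf).ch p).L a → ∀ b t, t ∈ ((S.twist θ hf).ch p).L b →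
        c s t ∈ (C.pl p).M (C.per p) (a + b - κ p) := by
  obtain ⟨c, hc, hc0⟩ := I.hC
  obtain ⟨h3, h4⟩ := (skF_iff h2 hθ hf).1 hc
  exact ⟨c, hc0, h3, h4⟩

theorem c_inj_of_inp (h2 : (2 : F) ≠ 0) (I : Inp κ N b M q S x φ) (hA : Lg N M A)
    (hθ : ∀ p, κ p = 2 * θ p) (hf : {p | θ p ≠ 0}.Finite) (c : U →ₗ[F] U →ₗ[F] F)
    (h1 : ∀ s, c s s = 0)
    (h3 : ∀ p a s, s ∈ ((S.twist θ hf).ch p).L a → ∀ b t, t ∈ ((S.twist θ hf).ch p).L b →
        c s t ∈ (C.pl p).M (C.per p) (a + b - κ p))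
    (h4 : ∀ a ∈ A, ∀ a' ∈ A, c (x a) (x a') = 0) : c = 0 :=
  I.xi hA ((skF_iff h2 hθ hf).2 ⟨h1, h3⟩) h4

theorem Ano_of_inp (hA : Lg N M A) (hf : {p | θ p ≠ 0}.Finite) :
    NoHom ((N.twist θ hf).sub A) (M.twist θ hf) := by
  rw [sub_tw, noHom_tw]
  exact hA.no

theorem Amax_of_inp (hA : Lg N M A) (hf : {p | θ p ≠ 0}.Finite) (G : Submodule F E)
    (hG : NoHom ((N.twist θ hf).sub G) (M.twist θ hf)) : G ≤ A := by
  rw [sub_tw, noHom_tw] at hG
  exact hA.max G hG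

theorem hxA_of_inp (R : Red N S x A) (hf : {p | θ p ≠ 0}.Finite) (ψ : A →ₗ[F] U)
    (hψ : ψ ∈ HZ (((N.twist θ hf).sub A).hom (S.twist θ hf)).lat) :
    ∃ c : k, ψ = c • (x ∘ₗ A.subtype) := by
  rw [← mor_iff, sub_tw, mor_tw] at hψ
  exact R.one ψ hψ

theorem Fno_of_inp (R : Red N S x A) (hf : {p | θ p ≠ 0}.Finite) :
    NoHom ((N.twist θ hf).quo A) (S.twist θ hf) := by
  rw [quo_tw, noHom_tw]
  exact R.no

theorem hx_of_inp (hκ : Dualizing C κ) (h2 : (2 : F) ≠ 0) (I : Inp κ N b M q S x φ)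
    (hA : Lg N M A) (R : Red N S x A) (hθ : ∀ p, κ p = 2 * θ p) (hf : {p | θ p ≠ 0}.Finite)
    (ψ : E →ₗ[F] U) (hψ : ψ ∈ HZ ((N.twist θ hf).hom (S.twist θ hf)).lat) :
    ∃ c : k, ψ = c • x :=
  (rhom_of_inp hκ h2 I hA R hθ hf).1 ψ (mor_iff.2 hψ)

theorem hφ_of_inp (I : Inp κ N b M q S x φ) (hf : {p | θ p ≠ 0}.Finite) (ψ : E →ₗ[F] W)
    (hψ : ψ ∈ HZ ((N.twist θ hf).hom (M.twist θ hf)).lat) : ∃ c : k, ψ = c • φ := by
  rw [← mor_iff, mor_tw] at hψ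
  exact I.hφ ψ hψ

theorem mφ_of_inp (I : Inp κ N b M q S x φ) (hf : {p | θ p ≠ 0}.Finite) :
    φ ∈ HZ ((N.twist θ hf).hom (M.twist θ hf)).lat := by
  rw [← mor_iff, mor_tw]
  exact I.mφ

theorem mx_of_inp (I : Inp κ N b M q S x φ) (hf : {p | θ p ≠ 0}.Finite) :
    x ∈ HZ ((N.twist θ hf).hom (S.twist θ hf)).lat := by
  rw [← mor_iff, mor_tw]
  exact I.mx

theorem nil_of_inp (I : Inp κ N b M q S x φ) (hf : {p | θ p ≠ 0}.Finite) (ε : F)
    (hε : ε = 1 ∨ ε = -1) (Θ : E →ₗ[F] E) (hΘ : Θ ∈ adj b ε) (h : Higgs κ (N.twist θ hf) Θ)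
    (hn : IsNilpotent Θ) : Θ = 0 :=
  I.nil ε hε Θ hΘ ((higgs_tw hf).1 h) hn

theorem ext_of_inp (hκ : Dualizing C κ) (I : Inp κ N b M q S x φ)
    (hf : {p | θ p ≠ 0}.Finite) : h1 ((S.twist θ hf).hom (M.twist θ hf)).lat = 0 := by
  rw [lat_tw]
  exact (H735.noExt_iff hκ).1 I.ext

/-- **THE INPUT OF THE SPLITTING** -/
theorem l3In_of_inp (hκ : Dualizing C κ) (h2 : (2 : F) ≠ 0) (I : Inp κ N b M q S x φ)
    (hA : Lg N M A) (R : Red N S x A) (hθ : ∀ p, κ p = 2 * θ p) (hf : {p | θ p ≠ 0}.Finite) :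
    L3In hκ (N.twist θ hf) b (M.twist θ hf) q (S.twist θ hf) x φ A where
  oN := orth_tw I.oN hθ hf
  oM := orthV_tw I.oM hθ hf
  nil := nil_of_inp I hf
  mφ := mφ_of_inp I hf
  hφ := hφ_of_inp I hf
  hpp := hpp_of_inp I
  ext := ext_of_inp hκ I hf
  mx := mx_of_inp I hf
  hx := hx_of_inp hκ h2 I hA R hθ hf
  Ano := Ano_of_inp hA hf
  Amax := Amax_of_inp hA hf
  hxA := hxA_of_inp R hf
  Fno := Fno_of_inp R hf
  Fext := (rhom_of_inp hκ h2 I hA R hθ hf).2.1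
  Pno := Pno_of_inp I hA hf
  Pext := (rhom_of_inp hκ h2 I hA R hθ hf).2.2
  xperp := xperp_of_inp I hA
  FnoD := FnoD_of_inp hκ h2 I hA hθ hf
  PnoD := PnoD_of_inp hκ h2 I hA R hθ hf
  hz := hz_of_inp hκ h2 I hA hθ hf
  Y := Y_of_inp hκ h2 I hA hθ hf
  c_ne := c_ne_of_inp h2 I hθ hf
  c_inj := c_inj_of_inp h2 I hA hθ hf

/-- ... starting from `H735.Inp` alone -/
theorem exists_l3In [IsAlgClosed k] (hκ : Dualizing C κ) (h2 : (2 : F) ≠ 0)
    (I : Inp κ N b M q S x φ) (hθ : ∀ p, κ p = 2 * θ p) (hf : {p | θ p ≠ 0}.Finite) :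
    ∃ (A : Submodule F E) (X : Submodule F U), L3In hκ (N.twist θ hf) b (M.twist θ hf) q
      ((S.quo X).twist θ hf) (X.mkQ ∘ₗ x) φ A := by
  obtain ⟨A, hA⟩ := H735.exists_largest N M
  obtain ⟨X, hX, hR⟩ := H735.reduce I hA
  exact ⟨A, X, l3In_of_inp hκ h2 hX hA hR hθ hf⟩

end main

end Vale.Agent.P182.H563
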