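import Vale.Agent.P182.H983.GDef
import Vale.Agent.P182.H922.S2
import Vale.Agent.P182.H58.Glue7

/-!
# Change of the base point in the glued null case

`τ = x t + y t'`, all `x + y d_k ≠ 0`.  The auxiliary class `RelG` is the same for `t` and `τ`.
-/

namespace Vale.Agent.P182.H563

open Module Matrix Vale.Agent.P182.H533 Vale.Agent.P182.B1 Vale.Agent.P182.H922
  Vale.Agent.P182.H578 Vale.Agent.P182.H588 Vale.Agent.P182.H181 Vale.Agent.P182.H983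

section gen

variable {L V J : Type*} [Field L] [AddCommGroup V] [Module L V] [Fintype J] [DecidableEq J]
  {𝒟 : Cfg L V J} {W I : Submodule L V} {n : ℕ} {U : Fin n → Submodule L V}

/-- linear statements on `W` are checked on the `U k` -/
theorem W_ind (hs : ⨆ k, U k = W) (f : V →ₗ[L] V) (h : ∀ k, ∀ w ∈ U k, f w ∈ I) :
    ∀ w ∈ W, f w ∈ I := by
  have h1 : ⨆ k, U k ≤ I.comap f := iSup_le fun k w hw => h k w hw
  rw [hs] at h1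
  exact h1

/-- the operator of a second base point -/
theorem exists_g (hG : 𝒟.Good) {σ ρ : J → V} (hsum : ⨆ a, W.map (Res 𝒟 σ a) = W)
    (F1 : ∀ l k, 𝒟.q (σ l) (ρ k) = 𝒟.q (ρ l) (σ k))
    (F2 : ∀ a, opr 𝒟.q (Tt L σ) (Gm 𝒟.arm 𝒟.Ω a) (Tt L ρ) =
      opr 𝒟.q (Tt L ρ) (Gm 𝒟.arm 𝒟.Ω a) (Tt L σ))
    (hX : ∀ a, ∀ w ∈ W, opr 𝒟.q (Tt L ρ) (Gm 𝒟.arm 𝒟.Ω a) (Tt L σ) w ∈ W) :
    ∃ g : End L V, (∀ w ∈ W, g w ∈ W) ∧ (∀ w ∈ W, ∀ l, 𝒟.q w (ρ l) = 𝒟.q (g w) (σ l)) ∧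
      ∀ a, ∀ w ∈ W, Res 𝒟 σ a (g w) = opr 𝒟.q (Tt L ρ) (Gm 𝒟.arm 𝒟.Ω a) (Tt L σ) w := by
  obtain ⟨ξ, hξ1, hξ2⟩ := H58.Glue7.exists_sec (S := Res 𝒟 σ) (U := W) hsum
  have hq : IsForm 𝒟.q := hG.form
  have key : ∀ w ∈ W, ∀ l, 𝒟.q w (ρ l) =
      𝒟.q (∑ b, opr 𝒟.q (Tt L ρ) (Gm 𝒟.arm 𝒟.Ω b) (Tt L σ) (ξ b w)) (σ l) := by
    intro w hw l
    conv_lhs => rw [← hξ2 w hw]
    rw [hq.symm, map_sum, hq.symm, map_sum]
    exact Finset.sum_congr rfl fun b _ => S2.q_Res σ ρ F1 l b _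
  refine ⟨∑ b, opr 𝒟.q (Tt L ρ) (Gm 𝒟.arm 𝒟.Ω b) (Tt L σ) * ξ b, fun w hw => ?_,
    fun w hw l => ?_, fun a w hw => ?_⟩
  · rw [LinearMap.sum_apply]
    exact W.sum_mem fun b _ => hX b _ (hξ1 b w)
  · rw [LinearMap.sum_apply]
    exact key w hw l
  · rw [LinearMap.sum_apply, ← F2 a]
    exact (opr_congr hG (key w hw) σ a).symm

/-- **Change of the base point**, abstract form. -/
theorem relG_change (hG : 𝒟.Good) {σ ρ r : J → V} (hI : I = W ⊓ perp 𝒟.q W)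
    (supU : ⨆ k, U k = W) (supI : ⨆ k, U k ⊓ I = I)
    (ortho : ∀ i j, i ≠ j → ∀ v ∈ U i, ∀ w ∈ U j, 𝒟.q v w = 0)
    (hUS : ∀ k a, ∀ w ∈ U k, Res 𝒟 σ a w ∈ U k)
    {c : Fin n → L} (hc : ∀ k, c k ≠ 0)
    (hres : ∀ k a, ∀ w ∈ U k, Res 𝒟 ρ a w = c k ^ 2 • Res 𝒟 σ a w)
    (hop : ∀ k a, ∀ w ∈ U k, opr 𝒟.q (Tt L ρ) (Gm 𝒟.arm 𝒟.Ω a) (Tt L σ) w =
      c k • Res 𝒟 σ a w)
    (hstar : ∀ k, ∀ w ∈ U k, ∀ l, 𝒟.q (ρ l) w = c k * 𝒟.q (σ l) w)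
    (soc : ∀ w ∈ W, (∀ a, Res 𝒟 σ a w ∈ I) → w ∈ I)
    (hsum : ⨆ a, W.map (Res 𝒟 σ a) = W)
    (F1 : ∀ l k, 𝒟.q (σ l) (ρ k) = 𝒟.q (ρ l) (σ k))
    (F2 : ∀ a, opr 𝒟.q (Tt L σ) (Gm 𝒟.arm 𝒟.Ω a) (Tt L ρ) =
      opr 𝒟.q (Tt L ρ) (Gm 𝒟.arm 𝒟.Ω a) (Tt L σ))
    {Γ : End L V} (hΓ : RelG 𝒟 W I ρ Γ r) (hΓU : ∀ k, ∀ w ∈ U k, Γ w ∈ U k ⊔ I) :
    ∃ Γ' : End L V, RelG 𝒟 W I σ Γ' r ∧ ∀ k, ∀ w ∈ U k, Γ' w - c k • Γ w ∈ I := by
  have hq : IsForm 𝒟.q := hG.form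
  have hUW : ∀ k, U k ≤ W := fun k => by rw [← supU]; exact le_iSup U k
  have hIW : I ≤ W := by rw [hI]; exact inf_le_left
  have hIp : ∀ x ∈ I, ∀ w ∈ W, 𝒟.q x w = 0 := fun x hx w hw => by
    rw [hI] at hx
    exact hx.2 w hw
  have hSI : ∀ a, ∀ w ∈ I, Res 𝒟 σ a w ∈ I := fun a => by
    intro w hw
    rw [hI]
    have hSW : ∀ v ∈ W, Res 𝒟 σ a v ∈ W := by
      intro v hv
      have : Res 𝒟 σ a v ∈ ⨆ a, W.map (Res 𝒟 σ a) :=
        Submodule.mem_iSup_of_mem a ⟨v, hv, rfl⟩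
      rwa [hsum] at this
    have hSA : IsSA 𝒟.q (Res 𝒟 σ a) := Sop_SA 𝒟.arm hq (Tt L σ) hG.skew a
    refine ⟨hSW w (hIW hw), fun v hv => ?_⟩
    rw [hSA w v]
    exact hIp w hw _ (hSW v hv)
  have hX : ∀ a, ∀ w ∈ W, opr 𝒟.q (Tt L ρ) (Gm 𝒟.arm 𝒟.Ω a) (Tt L σ) w ∈ W := fun a =>
    W_ind supU _ fun k w hw => by
      rw [hop k a w hw]
      exact W.smul_mem _ (hUW k (hUS k a w hw))
  obtain ⟨g, g1, g2, g3⟩ := exists_g hG hsum F1 F2 hX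
  -- `g = c k` on `U k` modulo `I`
  have hg : ∀ k, ∀ w ∈ U k, g w - c k • w ∈ I := by
    intro k w hw
    refine soc _ (W.sub_mem (g1 w (hUW k hw)) (W.smul_mem _ (hUW k hw))) fun a => ?_
    rw [map_sub, map_smul, g3 a w (hUW k hw), hop k a w hw, sub_self]
    exact I.zero_mem
  have hgI : ∀ w ∈ I, g w ∈ I := by
    have h1 : ⨆ k, U k ⊓ I ≤ I.comap g := iSup_le fun k w hw => by
      have h2 := I.add_mem (hg k w hw.1) (I.smul_mem (c k) hw.2)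
      rwa [sub_add_cancel] at h2
    rw [supI] at h1
    exact h1
  -- on `U k ⊔ I`
  have hg' : ∀ k, ∀ w ∈ U k ⊔ I, g w - c k • w ∈ I := by
    intro k w hw
    obtain ⟨a, ha, b, hb, rfl⟩ := Submodule.mem_sup.1 hw
    rw [map_add, smul_add, add_sub_add_comm]
    exact I.add_mem (hg k a ha) (I.sub_mem (hgI b hb) (I.smul_mem _ hb))
  have hres' : ∀ k a, ∀ w ∈ U k ⊔ I, Res 𝒟 ρ a w - c k ^ 2 • Res 𝒟 σ a w ∈ I := by
    have hI' : ∀ a, ∀ w ∈ I, Res 𝒟 ρ a w ∈ I := by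
      intro a
      have h1 : ⨆ k, U k ⊓ I ≤ I.comap (Res 𝒟 ρ a) := iSup_le fun k w hw => by
        rw [Submodule.mem_comap, hres k a w hw.1]
        exact I.smul_mem _ (hSI a w hw.2)
      rw [supI] at h1
      exact h1
    intro k a w hw
    obtain ⟨x, hx, b, hb, rfl⟩ := Submodule.mem_sup.1 hw
    rw [map_add, map_add, smul_add, add_sub_add_comm, hres k a x hx, sub_self, zero_add]
    exact I.sub_mem (hI' a b hb) (I.smul_mem _ (hSI a b hb))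
  have hSU : ∀ k a, ∀ w ∈ U k ⊔ I, Res 𝒟 σ a w ∈ U k ⊔ I := by
    intro k a w hw
    obtain ⟨x, hx, b, hb, rfl⟩ := Submodule.mem_sup.1 hw
    rw [map_add]
    exact Submodule.add_mem_sup (hUS k a x hx) (hSI a b hb)
  have hmain : ∀ k, ∀ w ∈ U k, (g * Γ) w - c k • Γ w ∈ I := fun k w hw =>
    hg' k _ (hΓU k w hw)
  -- `Γ` commutes with `Res σ` modulo `I`
  have hcomm : ∀ k a, ∀ w ∈ U k, Γ (Res 𝒟 σ a w) - Res 𝒟 σ a (Γ w) ∈ I := by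
    intro k a w hw
    have h1 := hΓ.comm a w (hUW k hw)
    have h2 := hres' k a _ (hΓU k w hw)
    rw [hres k a w hw, map_smul] at h1
    have h3 := I.smul_mem ((c k ^ 2)⁻¹) (I.add_mem h1 h2)
    have h4 : (c k ^ 2) ≠ 0 := pow_ne_zero 2 (hc k)
    have e : (c k ^ 2)⁻¹ • (c k ^ 2 • Γ (Res 𝒟 σ a w) - Res 𝒟 ρ a (Γ w) +
        (Res 𝒟 ρ a (Γ w) - c k ^ 2 • Res 𝒟 σ a (Γ w))) =
        Γ (Res 𝒟 σ a w) - Res 𝒟 σ a (Γ w) := by
      rw [sub_add_sub_cancel, ← smul_sub, smul_smul, inv_mul_cancel₀ h4, one_smul]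
    rwa [e] at h3
  refine ⟨g * Γ, ⟨fun w hw => g1 _ (hΓ.mapW w hw), fun w hw => hgI _ (hΓ.mapI w hw), ?_, ?_,
    fun w hw l => ?_, ?_⟩, hmain⟩
  · -- self-adjoint
    have h1 : ∀ i, ∀ v ∈ U i, ∀ j, ∀ w ∈ U j,
        𝒟.q ((g * Γ) v) w - 𝒟.q v ((g * Γ) w) = 0 := by
      intro i v hv j w hw
      have e1 : 𝒟.q ((g * Γ) v) w = c i * 𝒟.q (Γ v) w := by
        have := hIp _ (hmain i v hv) w (hUW j hw)
        rw [map_sub, LinearMap.sub_apply, sub_eq_zero] at this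
        rw [this, map_smul, LinearMap.smul_apply, smul_eq_mul]
      have e2 : 𝒟.q v ((g * Γ) w) = c j * 𝒟.q v (Γ w) := by
        have := hIp _ (hmain j w hw) v (hUW i hv)
        rw [hq.symm, map_sub, sub_eq_zero] at this
        rw [this, map_smul, smul_eq_mul]
      rw [e1, e2, hΓ.sa v (hUW i hv) w (hUW j hw)]
      by_cases hij : i = j
      · rw [hij, sub_self]
      · have e3 : 𝒟.q v (Γ w) = 0 := by
          obtain ⟨a, ha, b, hb, hab⟩ := Submodule.mem_sup.1 (hΓU j w hw)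
          rw [← hab, map_add, ortho i j hij v hv a ha, hq.symm, hIp b hb v (hUW i hv), add_zero]
        rw [e3, mul_zero, mul_zero, sub_zero]
    intro v hv w hw
    have h2 : ∀ j, ∀ w ∈ U j, ∀ v ∈ W, 𝒟.q ((g * Γ) v) w - 𝒟.q v ((g * Γ) w) = 0 := by
      intro j w hw
      have h3 : ⨆ k, U k ≤ LinearMap.ker ((𝒟.q.flip w) ∘ₗ (g * Γ) - 𝒟.q.flip ((g * Γ) w)) :=
        iSup_le fun k v hv => by
          rw [LinearMap.mem_ker]
          exact h1 k v hv j w hw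
      rw [supU] at h3
      intro v hv
      exact h3 hv
    have h4 : ⨆ k, U k ≤ LinearMap.ker (𝒟.q ((g * Γ) v) - (𝒟.q v) ∘ₗ (g * Γ)) :=
      iSup_le fun k w hw => by
        rw [LinearMap.mem_ker]
        exact h2 k w hw v hv
    rw [supU] at h4
    exact sub_eq_zero.1 (h4 hw)
  · -- commutation
    intro a
    refine W_ind supU ((g * Γ) * Res 𝒟 σ a - Res 𝒟 σ a * (g * Γ)) fun k w hw => ?_
    have e1 := hmain k _ (hUS k a w hw)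
    have e2 := hSI a _ (hmain k w hw)
    have e3 := I.smul_mem (c k) (hcomm k a w hw)
    have := I.add_mem (I.sub_mem e1 e2) e3
    convert this using 1
    simp only [LinearMap.sub_apply, Module.End.mul_apply, map_sub, map_smul, smul_sub]
    abel
  · rw [hΓ.one w hw l, g2 _ (hΓ.mapW w hw) l]
    rfl
  · intro a
    refine W_ind supU (opr 𝒟.q (Tt L r) (Gm 𝒟.arm 𝒟.Ω a) (Tt L σ) -
      Res 𝒟 σ a * (g * Γ)) fun k w hw => ?_
    have e0 : opr 𝒟.q (Tt L r) (Gm 𝒟.arm 𝒟.Ω a) (Tt L ρ) w =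
        c k • opr 𝒟.q (Tt L r) (Gm 𝒟.arm 𝒟.Ω a) (Tt L σ) w := by
      rw [opr_congr hG (t := σ) (R := ρ) (y := c k • w) (fun l => by
        rw [hq.symm, hstar k w hw, map_smul, LinearMap.smul_apply, smul_eq_mul, hq.symm w]) r a,
        map_smul]
    have e1 := hΓ.two a w (hUW k hw)
    rw [e0] at e1
    have e2 := hres' k a _ (hΓU k w hw)
    have e3 := hSI a _ (hmain k w hw)
    have e4 := I.sub_mem (I.smul_mem ((c k)⁻¹) (I.add_mem e1 e2)) e3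
    convert e4 using 1
    have h4 : c k ≠ 0 := hc k
    have h5 : (c k)⁻¹ * c k ^ 2 = c k := by field_simp
    simp only [LinearMap.sub_apply, Module.End.mul_apply, map_sub, map_smul]
    rw [sub_add_sub_cancel, smul_sub, smul_smul, smul_smul, inv_mul_cancel₀ h4, one_smul, h5]
    abel

end gen

section blk

variable {L V J : Type*} [Field L] [AddCommGroup V] [Module L V] [Fintype J] [DecidableEq J]
  {𝒟 : Cfg L V J} {u : J → L} {t t' : J → V} {W I : Submodule L V} {n : ℕ}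
  {U : Fin n → Submodule L V} {d : Fin n → L} {p : Fin 3 → ℕ} {x y : L}

theorem tm_mem (B : Blk 𝒟 u t t' W I U d p) (x y : L) : tm t t' x y ∈ Ku 𝒟 u :=
  add_mem (Submodule.smul_mem _ _ B.ht) (Submodule.smul_mem _ _ B.ht')

theorem U_le (B : Blk 𝒟 u t t' W I U d p) (k : Fin n) : U k ≤ W := by
  rw [← B.supU]; exact le_iSup U k

theorem I_le (B : Blk 𝒟 u t t' W I U d p) : I ≤ W := by rw [B.I_eq]; exact inf_le_left

theorem I_perp (B : Blk 𝒟 u t t' W I U d p) {v w : V} (hv : v ∈ I) (hw : w ∈ W) :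
    𝒟.q v w = 0 := by
  rw [B.I_eq] at hv
  exact hv.2 w hw

theorem U_stab (B : Blk 𝒟 u t t' W I U d p) (k : Fin n) (a : Fin 3) {w : V} (hw : w ∈ U k) :
    Res 𝒟 t a w ∈ U k := by
  have : Res 𝒟 t a w ∈ ⨆ a, (U k).map (Res 𝒟 t a) :=
    Submodule.mem_iSup_of_mem a ⟨w, hw, rfl⟩
  rwa [B.sumU] at this

theorem star_tm (B : Blk 𝒟 u t t' W I U d p) (x y : L) (k : Fin n) {w : V} (hw : w ∈ U k)
    (l : J) : 𝒟.q (tm t t' x y l) w = (x + y * d k) * 𝒟.q (t l) w := by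
  have : tm t t' x y l = x • t l + y • t' l := rfl
  rw [this, map_add, map_smul, map_smul, LinearMap.add_apply, LinearMap.smul_apply,
    LinearMap.smul_apply, smul_eq_mul, smul_eq_mul, B.star k w hw]
  ring

theorem opr_tm (hG : 𝒟.Good) (B : Blk 𝒟 u t t' W I U d p) (x y : L) (r : J → V) (k : Fin n)
    (a : Fin 3) {w : V} (hw : w ∈ U k) :
    opr 𝒟.q (Tt L r) (Gm 𝒟.arm 𝒟.Ω a) (Tt L (tm t t' x y)) w =
      (x + y * d k) • opr 𝒟.q (Tt L r) (Gm 𝒟.arm 𝒟.Ω a) (Tt L t) w := by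
  rw [opr_congr hG (t := t) (R := tm t t' x y) (y := (x + y * d k) • w) (fun l => by
    rw [hG.form.symm, star_tm B x y k hw, map_smul, LinearMap.smul_apply, smul_eq_mul,
      hG.form.symm w]) r a, map_smul]

theorem swap_tm (hG : 𝒟.Good)
    (hK : KRel 𝒟.arm 𝒟.q 𝒟.Ω (Tt L '' (Ku 𝒟 u : Set (J → V))))
    (B : Blk 𝒟 u t t' W I U d p) (x y : L) (a : Fin 3) :
    opr 𝒟.q (Tt L t) (Gm 𝒟.arm 𝒟.Ω a) (Tt L (tm t t' x y)) =
      opr 𝒟.q (Tt L (tm t t' x y)) (Gm 𝒟.arm 𝒟.Ω a) (Tt L t) :=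
  hK.swap hG.form hG.skew ⟨t, B.ht, rfl⟩ ⟨_, tm_mem B x y, rfl⟩ a

theorem F1_tm (hG : 𝒟.Good)
    (hK : KRel 𝒟.arm 𝒟.q 𝒟.Ω (Tt L '' (Ku 𝒟 u : Set (J → V))))
    (B : Blk 𝒟 u t t' W I U d p) (x y : L) (l k : J) :
    𝒟.q (t l) (tm t t' x y k) = 𝒟.q (tm t t' x y l) (t k) := by
  have h1 := hK.F1 _ ⟨t, B.ht, rfl⟩ _ ⟨_, tm_mem B x y, rfl⟩ (Pi.single l 1) (Pi.single k 1)
  simpa [Tt_single] using h1

theorem opr_tm_left (hG : 𝒟.Good)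
    (hK : KRel 𝒟.arm 𝒟.q 𝒟.Ω (Tt L '' (Ku 𝒟 u : Set (J → V))))
    (B : Blk 𝒟 u t t' W I U d p) (x y : L) (k : Fin n) (a : Fin 3) {w : V} (hw : w ∈ U k) :
    opr 𝒟.q (Tt L (tm t t' x y)) (Gm 𝒟.arm 𝒟.Ω a) (Tt L t) w =
      (x + y * d k) • Res 𝒟 t a w := by
  rw [← swap_tm hG hK B, opr_tm hG B x y t k a hw]
  rfl

/-- the residues at the second base point -/
theorem Res_tm (hG : 𝒟.Good)
    (hK : KRel 𝒟.arm 𝒟.q 𝒟.Ω (Tt L '' (Ku 𝒟 u : Set (J → V))))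
    (B : Blk 𝒟 u t t' W I U d p) (x y : L) (k : Fin n) (a : Fin 3) {w : V} (hw : w ∈ U k) :
    Res 𝒟 (tm t t' x y) a w = (x + y * d k) ^ 2 • Res 𝒟 t a w := by
  have h1 : Res 𝒟 (tm t t' x y) a w =
      opr 𝒟.q (Tt L (tm t t' x y)) (Gm 𝒟.arm 𝒟.Ω a) (Tt L (tm t t' x y)) w := rfl
  rw [h1, opr_tm hG B x y _ k a hw, opr_tm_left hG hK B x y k a hw, smul_smul, sq]

theorem sumU_tm (hG : 𝒟.Good)
    (hK : KRel 𝒟.arm 𝒟.q 𝒟.Ω (Tt L '' (Ku 𝒟 u : Set (J → V))))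
    (B : Blk 𝒟 u t t' W I U d p) (k : Fin n) (hk : x + y * d k ≠ 0) :
    ⨆ a, (U k).map (Res 𝒟 (tm t t' x y) a) = U k := by
  have h1 : ∀ a, (U k).map (Res 𝒟 (tm t t' x y) a) = (U k).map (Res 𝒟 t a) := by
    intro a
    ext v
    constructor
    · rintro ⟨w, hw, rfl⟩
      exact ⟨(x + y * d k) ^ 2 • w, Submodule.smul_mem _ _ hw, by
        rw [map_smul, Res_tm hG hK B x y k a hw]⟩
    · rintro ⟨w, hw, rfl⟩
      refine ⟨((x + y * d k) ^ 2)⁻¹ • w, Submodule.smul_mem _ _ hw, ?_⟩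
      rw [map_smul, Res_tm hG hK B x y k a hw, smul_smul, inv_mul_cancel₀ (pow_ne_zero 2 hk),
        one_smul]
  simp only [h1]
  exact B.sumU k

theorem sumW_tm (hG : 𝒟.Good)
    (hK : KRel 𝒟.arm 𝒟.q 𝒟.Ω (Tt L '' (Ku 𝒟 u : Set (J → V))))
    (B : Blk 𝒟 u t t' W I U d p) (hu : ∀ k, x + y * d k ≠ 0) :
    ⨆ a, W.map (Res 𝒟 (tm t t' x y) a) = W := by
  apply le_antisymm
  · refine iSup_le fun a => ?_
    rw [Submodule.map_le_iff_le_comap, ← B.supU]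
    refine iSup_le fun k w hw => ?_
    rw [Submodule.mem_comap, Res_tm hG hK B x y k a hw]
    exact Submodule.smul_mem _ _ (Submodule.mem_iSup_of_mem k (U_stab B k a hw))
  · conv_lhs => rw [← B.supU]
    refine iSup_le fun k => ?_
    rw [← sumU_tm hG hK B k (hu k)]
    exact iSup_mono fun a => Submodule.map_mono (U_le B k)

/-- no socle at the second base point -/
theorem soc_tm (hG : 𝒟.Good)
    (hK : KRel 𝒟.arm 𝒟.q 𝒟.Ω (Tt L '' (Ku 𝒟 u : Set (J → V))))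
    (B : Blk 𝒟 u t t' W I U d p) (hu : ∀ k, x + y * d k ≠ 0) :
    ∀ w ∈ W, (∀ a, Res 𝒟 (tm t t' x y) a w ∈ I) → w ∈ I := by
  intro w hw h
  refine B.soc w hw fun a => ?_
  have hSA : ∀ τ : J → V, IsSA 𝒟.q (Res 𝒟 τ a) := fun τ =>
    Sop_SA 𝒟.arm hG.form (Tt L τ) hG.skew a
  rw [B.I_eq]
  constructor
  · have : Res 𝒟 t a w ∈ ⨆ a, W.map (Res 𝒟 t a) := Submodule.mem_iSup_of_mem a ⟨w, hw, rfl⟩
    rwa [B.sumW] at this
  · have h1 : ⨆ k, U k ≤ LinearMap.ker (𝒟.q (Res 𝒟 t a w)) := iSup_le fun k v hv => by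
      rw [LinearMap.mem_ker, hSA t w v]
      have h2 := I_perp B (h a) (U_le B k hv)
      rw [hSA _ w v, Res_tm hG hK B x y k a hv, map_smul, smul_eq_mul] at h2
      exact (mul_eq_zero.1 h2).resolve_left (pow_ne_zero 2 (hu k))
    rw [B.supU] at h1
    exact fun v hv => h1 hv

/-- **Change of the base point, from `τ` to `t`.** -/
theorem relG_from (hG : 𝒟.Good)
    (hK : KRel 𝒟.arm 𝒟.q 𝒟.Ω (Tt L '' (Ku 𝒟 u : Set (J → V))))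
    (B : Blk 𝒟 u t t' W I U d p) (hu : ∀ k, x + y * d k ≠ 0) {Γ : End L V} {r : J → V}
    (h : RelG 𝒟 W I (tm t t' x y) Γ r) (hU : ∀ k, ∀ w ∈ U k, Γ w ∈ U k ⊔ I) :
    ∃ Γ' : End L V, RelG 𝒟 W I t Γ' r ∧
      ∀ k, ∀ w ∈ U k, Γ' w - (x + y * d k) • Γ w ∈ I :=
  relG_change hG B.I_eq B.supU B.supI B.ortho (fun k a w hw => U_stab B k a hw)
    (c := fun k => x + y * d k) hu (fun k a w hw => Res_tm hG hK B x y k a hw)
    (fun k a w hw => opr_tm_left hG hK B x y k a hw) (fun k w hw l => star_tm B x y k hw l)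
    B.soc B.sumW (F1_tm hG hK B x y) (swap_tm hG hK B x y) h hU

/-- **Change of the base point, from `t` to `τ`.** -/
theorem relG_to (hG : 𝒟.Good)
    (hK : KRel 𝒟.arm 𝒟.q 𝒟.Ω (Tt L '' (Ku 𝒟 u : Set (J → V))))
    (B : Blk 𝒟 u t t' W I U d p) (hu : ∀ k, x + y * d k ≠ 0) {Γ : End L V} {r : J → V}
    (h : RelG 𝒟 W I t Γ r) :
    ∃ Γ' : End L V, RelG 𝒟 W I (tm t t' x y) Γ' r ∧
      ∀ k, ∀ w ∈ U k, Γ' w - (x + y * d k)⁻¹ • Γ w ∈ I := by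
  obtain ⟨c, hc⟩ := B.scal Γ h.mapW h.mapI h.sa h.comm
  have hres : ∀ k a, ∀ w ∈ U k, Res 𝒟 t a w =
      (x + y * d k)⁻¹ ^ 2 • Res 𝒟 (tm t t' x y) a w := fun k a w hw => by
    rw [Res_tm hG hK B x y k a hw, smul_smul, ← mul_pow, inv_mul_cancel₀ (hu k), one_pow,
      one_smul]
  refine relG_change hG B.I_eq B.supU B.supI B.ortho
    (fun k a w hw => by
      rw [Res_tm hG hK B x y k a hw]
      exact Submodule.smul_mem _ _ (U_stab B k a hw))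
    (c := fun k => (x + y * d k)⁻¹) (fun k => inv_ne_zero (hu k)) hres
    (fun k a w hw => ?_) (fun k w hw l => ?_) (soc_tm hG hK B hu) (sumW_tm hG hK B hu)
    (fun l k => (F1_tm hG hK B x y l k).symm)
    (fun a => (swap_tm hG hK B x y a).symm) h (fun k w hw => ?_)
  · rw [opr_tm hG B x y t k a hw, show opr 𝒟.q (Tt L t) (Gm 𝒟.arm 𝒟.Ω a) (Tt L t) w =
      Res 𝒟 t a w from rfl, hres k a w hw, smul_smul]
    have h1 : (x + y * d k) * (x + y * d k)⁻¹ ^ 2 = (x + y * d k)⁻¹ := by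
      have := hu k
      field_simp
    rw [h1]
  · show 𝒟.q (t l) w = (x + y * d k)⁻¹ * 𝒟.q (tm t t' x y l) w
    rw [star_tm B x y k hw, ← mul_assoc, inv_mul_cancel₀ (hu k), one_mul]
  · have h1 := hc k w hw
    have h2 : Γ w = c k • w + (Γ w - c k • w) := by abel
    rw [h2]
    exact Submodule.add_mem_sup (Submodule.smul_mem _ _ hw) h1

end blk

end Vale.Agent.P182.H563
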