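import Vale.Agent.P182.H563.Base
import Vale.Agent.P182.H532.SGood
import Vale.Agent.P182.H922.BlkC

/-!
# Row S: generalised surjectivity for tensors, at every good base point
-/

namespace Vale.Agent.P182.H563

open Module Matrix Vale.Agent.P182.H533 Vale.Agent.P182.B1 Vale.Agent.P182.H922
  Vale.Agent.P182.H578 Vale.Agent.P182.H588 Vale.Agent.P182.H181 Vale.Agent.P182.H983

section core

variable {L V : Type*} [Field L] [AddCommGroup V] [Module L V] [FiniteDimensional L V]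
  {q : V →ₗ[L] V →ₗ[L] L} {S : Fin 3 → End L V}

/-- commutation modulo the radical, on the core -/
theorem res_comm (hq : IsForm q) (hS : ∀ s, IsSA q (S s)) (C : Core q S) {b : End L V}
    (hb1 : ∀ v, b v ∈ C.W) (hb2 : ∀ v ∈ perp q C.W, b v = 0) (s : Fin 3)
    (h : ∀ w ∈ C.W, b (S s w) - S s (b w) ∈ C.I) :
    C.res hq b * C.S1 hq s = C.S1 hq s * C.res hq b := by
  refine LinearMap.ext fun v => ?_
  have e1 : (C.res hq b * C.S1 hq s) v = C.P hq (b (S s v)) := by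
    show C.P hq (b (C.P hq (S s v) : V)) = _
    have h1 := C.sub_P_mem_I hq (C.map_W (s := s) (C.V1_le v.2))
    have h2 := hb2 _ (C.I_le_perp h1)
    rw [map_sub, sub_eq_zero] at h2
    rw [h2]
  have e2 : (C.S1 hq s * C.res hq b) v = C.P hq (S s (b v)) := by
    show C.P hq (S s (C.P hq (b v) : V)) = _
    have h1 := C.sub_P_mem_I hq (hb1 (v : V))
    have h2 := C.P_eq_zero hq (C.I_le_perp (C.map_I hS (s := s) h1))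
    rw [map_sub, map_sub, sub_eq_zero] at h2
    exact h2.symm
  rw [e1, e2]
  have h1 := C.P_eq_zero hq (C.I_le_perp (h v (C.V1_le v.2)))
  rwa [map_sub, sub_eq_zero] at h1

end core

section main

variable {L V J : Type*} [Field L] [AddCommGroup V] [Module L V] [FiniteDimensional L V]
  [Fintype J] [DecidableEq J]
  {𝒟 : Cfg L V J} {u : J → L} {t t' : J → V} {W I : Submodule L V} {n : ℕ}
  {U : Fin n → Submodule L V} {d : Fin n → L} {p : Fin 3 → ℕ} {x y : L}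

/-- scalars on the blocks, from the centrality at `τ` -/
theorem scal_tm (B : Blk 𝒟 u t t' W I U d p)
    (hcen : ∀ M : End L V, (∀ w ∈ W, M w ∈ W) → (∀ w ∈ I, M w ∈ I) →
      (∀ a, ∀ w ∈ W, M (Res 𝒟 (tm t t' x y) a w) - Res 𝒟 (tm t t' x y) a (M w) ∈ I) →
      ∀ a, ∀ w ∈ W, M (Res 𝒟 t a w) - Res 𝒟 t a (M w) ∈ I)
    {Γ : End L V} {r : J → V} (h : RelG 𝒟 W I (tm t t' x y) Γ r) :
    ∃ c : Fin n → L, ∀ k, ∀ w ∈ U k, Γ w - c k • w ∈ I :=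
  B.scal Γ h.mapW h.mapI h.sa (hcen Γ h.mapW h.mapI h.comm)

/-- **(S) with all properties of the witness.** -/
theorem rowS_wit (h2 : (2 : L) ≠ 0) (hC : Ctx 𝒟 u) (B : Blk 𝒟 u t t' W I U d p)
    (hM : MaxCoreU 𝒟 u t) (hu : ∀ k, x + y * d k ≠ 0)
    (hcen : ∀ M : End L V, (∀ w ∈ W, M w ∈ W) → (∀ w ∈ I, M w ∈ I) →
      (∀ a, ∀ w ∈ W, M (Res 𝒟 (tm t t' x y) a w) - Res 𝒟 (tm t t' x y) a (M w) ∈ I) →
      ∀ a, ∀ w ∈ W, M (Res 𝒟 t a w) - Res 𝒟 t a (M w) ∈ I)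
    {β : Fin 3 → End L V} (hβW : ∀ a, β a ∈ Ten 𝒟.q W W) (hβ : ∀ a, IsSA 𝒟.q (β a))
    (hc : ∀ a, ∀ w ∈ W,
      β a (Res 𝒟 (tm t t' x y) a w) - Res 𝒟 (tm t t' x y) a (β a w) ∈ I)
    (hsum : ∑ a, (Res 𝒟 (tm t t' x y) a * β a - β a * Res 𝒟 (tm t t' x y) a) = 0) :
    ∃ r ∈ Uu V u, (∃ Γ, RelG 𝒟 W I t Γ r ∧ ∃ c : Fin n → L, ∀ k, ∀ w ∈ U k,
        Γ w - c k • w ∈ I) ∧
      (∃ Γ, RelG 𝒟 W I (tm t t' x y) Γ r ∧ ∃ c : Fin n → L, ∀ k, ∀ w ∈ U k,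
        Γ w - c k • w ∈ I) ∧
      (∀ l k, 𝒟.q (tm t t' x y l) (r k) = 𝒟.q (r l) (tm t t' x y k)) ∧
      (∀ s, IsSA 𝒟.q (opr 𝒟.q (Tt L (tm t t' x y)) (Gm 𝒟.arm 𝒟.Ω s) (Tt L r) -
        Res 𝒟 (tm t t' x y) s * β s)) ∧
      InN 𝒟 (fam 𝒟 (tm t t' x y) β) r := by
  have hG := hC.good
  have hq : IsForm 𝒟.q := hG.form
  obtain ⟨C, hCW, hCI⟩ := S2.core_tm B hC hM hu
  have hS : ∀ s, IsSA 𝒟.q (Res 𝒟 (tm t t' x y) s) :=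
    Sop_SA 𝒟.arm hq (Tt L (tm t t' x y)) hG.skew
  have hcc : ∀ s, C.res hq (β s) * C.S1 hq s = C.S1 hq s * C.res hq (β s) := fun s =>
    res_comm hq hS C (fun v => by rw [hCW]; exact (hβW s).1 v)
      (fun v hv => (hβW s).2 v (by rwa [hCW] at hv)) s (by rw [hCW, hCI]; exact hc s)
  obtain ⟨r, hr, Γ, hΓ, h1, h3, h4⟩ := SPIN.S_base h2 hC (tm_mem B x y) C hβ
    (fun s v => by rw [hCW]; exact (hβW s).1 v) hsum hcc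
  rw [hCW, hCI] at hΓ
  obtain ⟨c, hcΓ⟩ := scal_tm B hcen hΓ
  obtain ⟨Γ', hΓ', h5⟩ := relG_from hG hC.krel B hu hΓ (fun k w hw => by
    have e : Γ w = c k • w + (Γ w - c k • w) := by abel
    rw [e]
    exact Submodule.add_mem_sup (Submodule.smul_mem _ _ hw) (hcΓ k w hw))
  exact ⟨r, hr, ⟨Γ', hΓ', B.scal Γ' hΓ'.mapW hΓ'.mapI hΓ'.sa hΓ'.comm⟩, ⟨Γ, hΓ, c, hcΓ⟩, h1, h3,
    h4⟩

/-- **Row S.** -/
theorem rowS (h2 : (2 : L) ≠ 0) (hC : Ctx 𝒟 u) (B : Blk 𝒟 u t t' W I U d p)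
    (hM : MaxCoreU 𝒟 u t) (hu : ∀ k, x + y * d k ≠ 0)
    (hcen : ∀ M : End L V, (∀ w ∈ W, M w ∈ W) → (∀ w ∈ I, M w ∈ I) →
      (∀ a, ∀ w ∈ W, M (Res 𝒟 (tm t t' x y) a w) - Res 𝒟 (tm t t' x y) a (M w) ∈ I) →
      ∀ a, ∀ w ∈ W, M (Res 𝒟 t a w) - Res 𝒟 t a (M w) ∈ I) :
    RowS 𝒟 u t t' W I x y := by
  intro β hβW hβ hc hsum
  obtain ⟨r, hr, ⟨Γ, hΓ, -⟩, -, -, -, hn⟩ := rowS_wit h2 hC B hM hu hcen hβW hβ hc hsum
  exact ⟨r, hr, ⟨Γ, hΓ⟩, hn⟩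

/-- **Row S off finitely many lines**, with the data at the base point. -/
theorem exists_rowS (h2 : (2 : L) ≠ 0) (hC : Ctx 𝒟 u) (B : Blk 𝒟 u t t' W I U d p)
    (hM : MaxCoreU 𝒟 u t) :
    ∃ F : Set (L × L), F.Finite ∧ (∀ b ∈ F, b ≠ 0) ∧ ∀ x y : L,
      (∀ b ∈ F, b.1 * x + b.2 * y ≠ 0) → (∀ k, x + y * d k ≠ 0) ∧
      (∀ M : End L V, (∀ w ∈ W, M w ∈ W) → (∀ w ∈ I, M w ∈ I) →
        (∀ a, ∀ w ∈ W, M (Res 𝒟 (tm t t' x y) a w) - Res 𝒟 (tm t t' x y) a (M w) ∈ I) →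
        ∀ a, ∀ w ∈ W, M (Res 𝒟 t a w) - Res 𝒟 t a (M w) ∈ I) ∧
      RowS 𝒟 u t t' W I x y := by
  obtain ⟨F, hF, hF0, h⟩ := S2.exists_lines B hC
  refine ⟨F, hF, hF0, fun x y hxy => ?_⟩
  obtain ⟨h1, h3⟩ := h x y hxy
  have hcen : ∀ M : End L V, (∀ w ∈ W, M w ∈ W) → (∀ w ∈ I, M w ∈ I) →
      (∀ a, ∀ w ∈ W, M (Res 𝒟 (tm t t' x y) a w) - Res 𝒟 (tm t t' x y) a (M w) ∈ I) →
      ∀ a, ∀ w ∈ W, M (Res 𝒟 t a w) - Res 𝒟 t a (M w) ∈ I := fun M a b c => (h3 M a b c).1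
  exact ⟨h1, hcen, rowS h2 hC B hM h1 hcen⟩

end main

end Vale.Agent.P182.H563
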